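import Mathlib
import Crest.Agent.N255.Dr.O
import Crest.Agent.N255.Cs.Tw

-- ▼ part N255/Tg/Basic
section

/-!
# Row 255 (helper23): Taylor data, nilpotent Nakayama, Tougeron absorption, nilpotent fixed points
-/

set_option autoImplicit false
open Set

namespace Crest.Agent.N255.Tg

variable {A : Type*} [CommRing A] {σ : Type*}

/-- the ideal generated by a family -/
def sp (z : σ → A) : Ideal A := Ideal.span (range z)

theorem mem_sp (z : σ → A) (i : σ) : z i ∈ sp z := Ideal.subset_span ⟨i, rfl⟩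

theorem sp_le {z : σ → A} {J : Ideal A} : sp z ≤ J ↔ ∀ i, z i ∈ J :=
  Ideal.span_le.trans range_subset_iff

/-- Nakayama for a nilpotent ideal -/
theorem nak {m I J : Ideal A} (hm : IsNilpotent m) (h : I ≤ J ⊔ m * I) : I ≤ J := by
  obtain ⟨N, hN⟩ := hm
  have key : ∀ k, I ≤ J ⊔ m ^ k * I := fun k => by
    induction k with
    | zero => simp
    | succ k ih =>
      refine ih.trans (sup_le le_sup_left ((Ideal.mul_mono_right h).trans ?_))
      rw [Ideal.mul_sup, ← mul_assoc, ← pow_succ]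
      exact sup_le_sup_right Ideal.mul_le_right _
  simpa [hN] using key N


variable [Fintype σ]

theorem mem_mul_sp {J : Ideal A} {z : σ → A} {P : A} :
    P ∈ J * sp z ↔ ∃ δ : σ → A, (∀ i, δ i ∈ J) ∧ P = ∑ i, δ i * z i := by
  refine ⟨fun h => ?_, ?_⟩
  · refine Submodule.mul_induction_on h (fun a ha b hb => ?_) ?_
    · obtain ⟨c, rfl⟩ := Ideal.mem_span_range_iff_exists_fun.1 hb
      exact ⟨fun i => a * c i, fun i => J.mul_mem_right _ ha, by
        simp only [Finset.mul_sum, mul_assoc]⟩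
    · rintro _ _ ⟨δ, h1, rfl⟩ ⟨δ', h2, rfl⟩
      exact ⟨δ + δ', fun i => add_mem (h1 i) (h2 i), by
        simp only [Pi.add_apply, add_mul, Finset.sum_add_distrib]⟩
  · rintro ⟨δ, h, rfl⟩
    exact sum_mem fun i _ => Ideal.mul_mem_mul (h i) (mem_sp z i)


/-- Taylor data on a set `U` of points -/
structure Tay (U : Set (σ → A)) (F : (σ → A) → A) (dF : (σ → A) → σ → A) : Prop where
  two : ∀ z ∈ U, ∀ z' ∈ U, F z' - F z - ∑ i, (z' i - z i) * dF z i ∈ sp (z' - z) ^ 2
  one : ∀ z ∈ U, ∀ z' ∈ U, ∀ i, dF z' i - dF z i ∈ sp (z' - z)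


variable {U : Set (σ → A)} {F : (σ → A) → A} {dF : (σ → A) → σ → A} {m : Ideal A}

theorem Tay.val (h : Tay U F dF) {z z' : σ → A} (hz : z ∈ U) (hz' : z' ∈ U) :
    F z' - F z ∈ sp (z' - z) := by
  have h1 := Ideal.pow_le_self two_ne_zero (h.two z hz z' hz')
  simpa using add_mem h1 (sum_mem fun i (_ : i ∈ Finset.univ) =>
    Ideal.mul_mem_right (dF z i) _ (mem_sp (z' - z) i))





/-! ### polynomial potentials -/

open MvPolynomial



/-! ### fixed points and inverses -/

omit [Fintype σ] in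
/-- uniqueness in the nilpotent fixed point theorem -/
theorem fix_uniq (hm : IsNilpotent m) {S : (σ → A) → σ → A}
    (hS : ∀ s ∈ U, ∀ s' ∈ U, ∀ i, S s' i - S s i ∈ m * sp (s' - s)) {s s' : σ → A} (hs : s ∈ U)
    (hs' : s' ∈ U) (e : S s = s) (e' : S s' = s') : s' = s := by
  have : sp (s' - s) ≤ ⊥ := nak hm (sp_le.2 fun i => Ideal.mem_sup_right (by
    simpa [e, e'] using hS s hs s' hs' i))
  funext i
  exact sub_eq_zero.1 (by simpa using sp_le.1 this i)

omit [Fintype σ] in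
/-- **nilpotent fixed point theorem** -/
theorem fix_ex (hm : IsNilpotent m) {S : (σ → A) → σ → A} (hU : MapsTo S U U)
    (hS : ∀ s ∈ U, ∀ s' ∈ U, ∀ i, S s' i - S s i ∈ m * sp (s' - s)) {s0 : σ → A} (h0 : s0 ∈ U) :
    ∃ s ∈ U, S s = s ∧ ∀ i, s i - s0 i ∈ sp (S s0 - s0) := by
  obtain ⟨N, hN⟩ := hm
  have key : ∀ k, (∀ i, S^[k + 1] s0 i - S^[k] s0 i ∈ m ^ k * sp (S s0 - s0)) ∧
      ∀ i, S^[k] s0 i - s0 i ∈ sp (S s0 - s0) := fun k => by
    induction k with
    | zero => exact ⟨fun i => by simpa using mem_sp (S s0 - s0) i, fun i => by simp⟩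
    | succ k ih =>
      refine ⟨fun i => ?_, fun i => ?_⟩
      · have := hS _ (hU.iterate k h0) _ (hU.iterate (k + 1) h0) i
        rw [← Function.iterate_succ_apply' S, ← Function.iterate_succ_apply' S] at this
        rw [pow_succ', mul_assoc]
        exact Ideal.mul_mono_right (sp_le.2 ih.1) this
      · simpa using add_mem (Ideal.mul_le_right (ih.1 i)) (ih.2 i)
  refine ⟨S^[N] s0, hU.iterate N h0, funext fun i => ?_, (key N).2⟩
  have := (key N).1 i
  rw [hN, zero_mul, Function.iterate_succ_apply'] at this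
  exact sub_eq_zero.1 (by simpa using this)



end Crest.Agent.N255.Tg
end

-- ▼ part N255/Tg/Gen
section

/-!
# Row 255 (helper23): Tougeron absorption with error ideals, small Hessians, gradings
-/

set_option autoImplicit false
open Set

namespace Crest.Agent.N255.Tg

variable {A : Type*} [CommRing A] {σ : Type*} [Fintype σ]

/-- Taylor data whose Hessian has values in `M` -/
structure TayM (U : Set (σ → A)) (M : Ideal A) (F : (σ → A) → A) (dF : (σ → A) → σ → A) : Prop where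
  two : ∀ z ∈ U, ∀ z' ∈ U, F z' - F z - ∑ i, (z' i - z i) * dF z i ∈ M * sp (z' - z) ^ 2
  one : ∀ z ∈ U, ∀ z' ∈ U, ∀ i, dF z' i - dF z i ∈ M * sp (z' - z)


variable {U : Set (σ → A)} {F : (σ → A) → A} {dF : (σ → A) → σ → A} {m M M' K L H : Ideal A}

theorem Tay.top (h : Tay U F dF) : TayM U ⊤ F dF :=
  ⟨by simpa only [Ideal.top_mul] using h.two, by simpa only [Ideal.top_mul] using h.one⟩


theorem TayM.mono {U' : Set (σ → A)} (h : TayM U M F dF) (hU : U' ⊆ U) (hM : M ≤ M') :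
    TayM U' M' F dF :=
  ⟨fun z hz z' hz' => Ideal.mul_mono_left hM (h.two z (hU hz) z' (hU hz')),
    fun z hz z' hz' i => Ideal.mul_mono_left hM (h.one z (hU hz) z' (hU hz') i)⟩

/-- detection survives shifts -/
theorem TayM.det (h : TayM U M F dF) (hm : IsNilpotent m) (hM : M' * M ≤ m) {z z' : σ → A}
    (hz : z ∈ U) (hz' : z' ∈ U) (hd : ∀ i, z' i - z i ∈ L) (hL : L ≤ M' * sp (dF z) ⊔ K) :
    L ≤ M' * sp (dF z') ⊔ K := by
  have h1 : sp (dF z) ≤ sp (dF z') ⊔ M * L := sp_le.2 fun i => by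
    simpa using sub_mem (Ideal.mem_sup_left (T := M * L) (mem_sp (dF z') i))
      (Ideal.mem_sup_right (Ideal.mul_mono_right (sp_le.2 hd) (h.one z hz z' hz' i)))
  refine nak hm (hL.trans (sup_le ((Ideal.mul_mono_right h1).trans ?_) (le_sup_of_le_left le_sup_right)))
  rw [Ideal.mul_sup, ← mul_assoc]
  exact sup_le_sup le_sup_left (Ideal.mul_mono_left hM)





/-! ### gradings -/

section Gr

variable {Γ S : Type*} [AddCommGroup Γ] [DecidableEq Γ] [SetLike S A] [AddSubgroupClass S A]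
  (𝒜 : Γ → S) [GradedRing 𝒜]



variable {𝒜}





end Gr

/-! ### polynomial potentials with a small Hessian -/

open MvPolynomial



end Crest.Agent.N255.Tg
end

-- ▼ part N255/Tg/Ift
section

/-!
# Row 255 (helper23): nilpotent implicit function theorem, critical points, Morse + Tougeron
-/

set_option autoImplicit false
open Set Matrix

namespace Crest.Agent.N255.Tg

variable {A : Type*} [CommRing A] {σ τ : Type*} [Fintype σ] [Fintype τ]

/-- `G` has the linear part `B` on `U`, modulo `m` -/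
def Lin (U : Set (σ → A)) (m : Ideal A) (G : (σ → A) → τ → A) (B : Matrix τ σ A) : Prop :=
  ∀ z ∈ U, ∀ z' ∈ U, ∀ i, G z' i - G z i - (B *ᵥ (z' - z)) i ∈ m * sp (z' - z)

variable {U : Set (σ → A)} {m : Ideal A} {G : (σ → A) → τ → A} {B : Matrix τ σ A}
  {B' : Matrix σ τ A}

omit [Fintype σ] in
theorem mulVec_mem {J : Ideal A} (B' : Matrix σ τ A) {v : τ → A} (h : ∀ i, v i ∈ J) (i : σ) :
    (B' *ᵥ v) i ∈ J :=
  sum_mem fun k _ => J.mul_mem_left _ (h k)

variable [DecidableEq σ] [DecidableEq τ]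

omit [DecidableEq τ] in
theorem Lin.ctr (h : Lin U m G B) (hB : B' * B = 1) :
    ∀ s ∈ U, ∀ s' ∈ U, ∀ i, (s' - B' *ᵥ G s') i - (s - B' *ᵥ G s) i ∈ m * sp (s' - s) := by
  intro s hs s' hs' i
  have h1 := neg_mem (mulVec_mem B' (v := G s' - G s - B *ᵥ (s' - s)) (h s hs s' hs') i)
  rw [mulVec_sub, mulVec_sub, mulVec_mulVec, hB, one_mulVec] at h1
  convert h1 using 1
  simp only [Pi.sub_apply]; ring

omit [DecidableEq τ] in
/-- uniqueness of zeros -/
theorem Lin.uniq (h : Lin U m G B) (hm : IsNilpotent m) (hB : B' * B = 1) {s s' : σ → A}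
    (hs : s ∈ U) (hs' : s' ∈ U) (e : G s = 0) (e' : G s' = 0) : s' = s :=
  fix_uniq hm (S := fun s => s - B' *ᵥ G s) (h.ctr hB) hs hs' (by simp [e]) (by simp [e'])

omit [DecidableEq τ] in
/-- the distance of two points is controlled by their images -/
theorem Lin.sp_le (h : Lin U m G B) (hm : IsNilpotent m) (hB : B' * B = 1) {s s' : σ → A}
    (hs : s ∈ U) (hs' : s' ∈ U) : sp (s' - s) ≤ sp (G s' - G s) := by
  refine nak hm (Tg.sp_le.2 fun i => ?_)
  convert add_mem (Ideal.mem_sup_left (mulVec_mem B' (mem_sp (G s' - G s)) i))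
    (Ideal.mem_sup_right (h.ctr hB s hs s' hs' i)) using 1
  simp only [mulVec_sub, Pi.sub_apply]; ring

/-- **implicit function theorem** -/
theorem Lin.ex (h : Lin U m G B) (hm : IsNilpotent m) (hB : B' * B = 1) (hB' : B * B' = 1)
    (hU : ∀ s ∈ U, s - B' *ᵥ G s ∈ U) {s0 : σ → A} (h0 : s0 ∈ U) :
    ∃ s ∈ U, G s = 0 ∧ ∀ i, s i - s0 i ∈ sp (G s0) := by
  obtain ⟨s, hs, e, -⟩ := fix_ex hm (S := fun s => s - B' *ᵥ G s) hU (h.ctr hB) h0
  have e0 : G s = 0 := by
    have : B *ᵥ B' *ᵥ G s = 0 := by rw [sub_eq_self.1 e, mulVec_zero]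
    rwa [mulVec_mulVec, hB', one_mulVec] at this
  refine ⟨s, hs, e0, fun i => ?_⟩
  have := h.sp_le hm hB hs h0 (mem_sp (s0 - s) i)
  rw [e0, sub_zero] at this
  simpa using neg_mem this


section Gr

variable {Γ S : Type*} [AddCommGroup Γ] [DecidableEq Γ] [SetLike S A] [AddSubgroupClass S A]
  {𝒜 : Γ → S} [GradedRing 𝒜]



end Gr


end Crest.Agent.N255.Tg
end

-- ▼ part N255/Tg/OnO

/-!
# Row 255 (helper23): Tougeron absorption and implicit functions for substitutions `O p K U → A`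
-/

set_option autoImplicit false
open Set Function

noncomputable section

namespace Crest.Agent.N255.Tg

open _root_.N255.Dr _root_.N255.Dr.O Cs

section Abs

variable {A : Type*} [CommRing A] {σ τ : Type*} [Fintype σ] [Fintype τ] {U : Set (σ → A)}
  {F F' : (σ → A) → A} {dF dF' : (σ → A) → σ → A} {M : Ideal A}

theorem TayM.congr (h : TayM U M F dF) (e : ∀ z ∈ U, F' z = F z) (e' : ∀ z ∈ U, dF' z = dF z) :
    TayM U M F' dF' :=
  ⟨fun z hz z' hz' => by rw [e z hz, e z' hz', e' z hz]; exact h.two z hz z' hz',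
    fun z hz z' hz' i => by rw [e' z hz, e' z' hz']; exact h.one z hz z' hz' i⟩

variable {Γ K : Type*} [AddCommGroup Γ] [Fintype Γ] [DecidableEq Γ] [CommRing K] [Algebra K A]
  (G : Gr Γ K A)



variable {G}

theorem pr_sum {d : σ → Γ} {D : Γ} {g : σ → A} (hg : ∀ i, G.Hg (D - d i) (g i)) (δ : σ → A) :
    G.pr D (∑ i, δ i * g i) = ∑ i, G.pr (d i) (δ i) * g i := by
  rw [map_sum]
  exact Finset.sum_congr rfl fun i _ => by rw [(hg i).mul_pr, sub_sub_cancel]



end Abs

variable {p : ℕ} {K : Type} [CommRing K] {σ τ : Type} {A : Type*} [CommRing A] [Algebra K A]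

theorem mx_nil [Finite σ] : IsNilpotent (mx : Ideal (O p K σ)) :=
  (Ideal.FG.isNilpotent_iff_le_nilradical (Submodule.fg_span (finite_range _))).2
    (Ideal.span_le.2 (by rintro _ ⟨i, rfl⟩; exact ⟨p, z_pow i⟩))


section Grad

variable {Γ : Type*} [AddCommGroup Γ] [Fintype Γ] [DecidableEq Γ] [Fintype σ]

theorem hg_zm {G : Gr Γ K A} {d : σ → Γ} (φ : O p K σ →ₐ[K] A) (h : ∀ i, G.Hg (d i) (φ (z i)))
    (a : σ → ℕ) : G.Hg (∑ i, a i • d i) (φ (zm a)) := by
  rw [zm, map_prod]
  exact Gr.Hg.prod fun i _ => by rw [map_pow]; exact (h i).pow _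

/-- the grading of `O` given by the degrees of the variables -/
def grO (p : ℕ) [hp : Fact p.Prime] (K : Type) [CommRing K] (d : σ → Γ) : Gr Γ K (O p K σ) :=
  Gr.ofBasis bas (fun a => ∑ i, (a i : ℕ) • d i)
    (fun a b => by
      rw [bas_apply, bas_apply, ← zm_add]
      by_cases h : ∀ i, ((fun i => (a i : ℕ)) + fun i => (b i : ℕ)) i < p
      · exact Submodule.subset_span ⟨fun i => ⟨_, h i⟩, by
          simp [add_smul, Finset.sum_add_distrib], bas_apply _⟩
      · rw [zm_eq_zero h]; exact zero_mem _)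
    (Submodule.subset_span ⟨fun _ => ⟨0, hp.out.pos⟩, by simp, by simp [bas_apply, zm]⟩)

theorem grO_z [hp : Fact p.Prime] (d : σ → Γ) (i : σ) : (grO p K d).Hg (d i) (z i) := by
  classical
  have : (grO p K d).Hg _ _ := Gr.ofBasis_hg (bas : Module.Basis (σ → Fin p) K (O p K σ))
    (fun a => ∑ i, (a i : ℕ) • d i) _ _ fun j => ⟨Pi.single (M := fun _ => ℕ) i 1 j, by
      rcases eq_or_ne j i with rfl | h
      · simpa using hp.out.one_lt
      · simpa [h] using hp.out.pos⟩
  rw [bas_apply] at this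
  simp only [Pi.single_apply, ite_smul, one_smul, zero_smul, Finset.sum_ite_eq', Finset.mem_univ,
    if_true] at this
  have e : (zm fun j => if j = i then 1 else 0 : O p K σ) = z i := by
    rw [← pow_one (z i), ← zm_single]
    exact congrArg zm (funext fun j => (Pi.single_apply _ _ _).symm)
  rwa [e] at this

variable {GO : Gr Γ K (O p K σ)} {G : Gr Γ K A} {d : σ → Γ}

/-- substitutions by homogeneous elements are graded -/
theorem hom_of_z (hO : ∀ i, GO.Hg (d i) (z i)) {φ : O p K σ →ₐ[K] A}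
    (h : ∀ i, G.Hg (d i) (φ (z i))) : GO.Hom G φ := fun a x =>
  LinearMap.congr_fun (lin_ext (f := φ.toLinearMap ∘ₗ GO.pr a) (g := G.pr a ∘ₗ φ.toLinearMap)
    fun b _ => by
      have h1 : GO.Hg _ (zm b) := hg_zm (AlgHom.id K _) hO b
      simp only [LinearMap.comp_apply, AlgHom.toLinearMap_apply, h1.pr, (hg_zm φ h b).pr,
        apply_ite φ, map_zero]) x

omit [Fintype σ] in
theorem id_mx (hO : ∀ i, GO.Hg (d i) (z i)) : GO.Id mx :=
  GO.id_span_hg (by rintro _ ⟨i, rfl⟩; exact ⟨_, hO i⟩)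

theorem hg_pd [Fact ((p : K) = 0)] (hO : ∀ i, GO.Hg (d i) (z i)) {D : Γ} {W : O p K σ}
    (hW : GO.Hg D W) (i : σ) : GO.Hg (D - d i) (pd i W) := by
  classical
  have key : (pd i : Derivation K (O p K σ) _).toLinearMap ∘ₗ GO.pr D =
      GO.pr (D - d i) ∘ₗ (pd i : Derivation K (O p K σ) _).toLinearMap := lin_ext fun b _ => by
    have h1 : ∀ b, GO.Hg _ (zm b) := hg_zm (AlgHom.id K _) hO
    simp only [LinearMap.comp_apply, Derivation.coeFn_coe, (h1 b).pr, apply_ite (pd i), map_zero,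
      pd_zm, map_nsmul, (h1 _).pr]
    rcases Nat.eq_zero_or_pos (b i) with h0 | h0
    · simp [h0]
    have e : ∑ j, (b - Pi.single (M := fun _ => ℕ) i 1) j • d j = ∑ j, b j • d j - d i := by
      have : b = (b - Pi.single (M := fun _ => ℕ) i 1) + Pi.single i 1 := funext fun j => by
        rcases eq_or_ne j i with rfl | h
        · simp; omega
        · simp [h]
      conv_rhs => rw [this]
      simp [add_smul, Finset.sum_add_distrib, Pi.single_apply]
    rw [e]
    simp only [sub_left_inj, smul_ite, smul_zero]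
  have := LinearMap.congr_fun key W
  simp only [LinearMap.comp_apply, Derivation.coeFn_coe] at this
  rw [show GO.pr D W = W from hW] at this
  exact this.symm

end Grad

variable {m : Ideal A}

/-- replace the values of `φ` on the variables `e i` -/
def upd (hp : ∀ x ∈ m, x ^ p = 0) (e : τ → σ) (φ : O p K σ →ₐ[K] A) (b : τ → A) (hb : ∀ i, b i ∈ m) :
    O p K σ →ₐ[K] A :=
  lift (extend e b fun u => φ (z u)) fun u => by
    classical
    by_cases hu : ∃ k, e k = u
    · rw [extend_def, dif_pos hu]; exact hp _ (hb _)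
    · rw [extend_apply' _ _ _ hu, ← map_pow, z_pow, map_zero]

theorem upd_e (hp : ∀ x ∈ m, x ^ p = 0) {e : τ → σ} (he : Injective e) (φ : O p K σ →ₐ[K] A)
    (b : τ → A) (hb : ∀ i, b i ∈ m) (i : τ) : upd hp e φ b hb (z (e i)) = b i := by
  rw [upd, lift_z, he.extend_apply]

theorem upd_not (hp : ∀ x ∈ m, x ^ p = 0) (e : τ → σ) (φ : O p K σ →ₐ[K] A)
    (b : τ → A) (hb : ∀ i, b i ∈ m) {u : σ} (hu : u ∉ range e) :
    upd hp e φ b hb (z u) = φ (z u) := by
  rw [upd, lift_z, extend_apply' _ _ _ hu]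


variable [Fact ((p : K) = 0)] [Fintype τ]


variable {Γ : Type*} [AddCommGroup Γ] [Fintype Γ] [DecidableEq Γ] [Fintype σ]
  {GO : Gr Γ K (O p K σ)} {G : Gr Γ K A} {d : σ → Γ}



end Crest.Agent.N255.Tg

end
namespace Crest.Agent.N255.Tg.Lin
end Crest.Agent.N255.Tg.Lin
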