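import Crest.Agent.N255.Tg.OnO

-- ▼ part N255/Tg/Wt
section

/-!
# Row 255 (helper23): weighted Taylor formulas, weighted Tougeron absorption, weighted fixed points
-/

set_option autoImplicit false
open Set Function

noncomputable section

namespace Crest.Agent.N255.Tg

open _root_.N255.Dr _root_.N255.Dr.O Cs

variable {p : ℕ} {K : Type} [CommRing K] {σ τ : Type} [Fintype σ] {A : Type*} [CommRing A]
  [Algebra K A]

theorem pi_ind [DecidableEq σ] {P : (σ → ℕ) → Prop} (h0 : P 0)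
    (h : ∀ a j, P a → P (a + Pi.single j 1)) (a : σ → ℕ) : P a := by
  induction' hn : ∑ i, a i with n ih generalizing a
  · rwa [show a = 0 from funext fun i => Finset.sum_eq_zero_iff.1 hn i (Finset.mem_univ i)]
  obtain ⟨j, -, hj⟩ := Finset.exists_ne_zero_of_sum_ne_zero (show ∑ i, a i ≠ 0 by omega)
  have e : a = (a - Pi.single j 1) + Pi.single j 1 := funext fun i => by
    rcases eq_or_ne i j with rfl | hi
    · simp; omega
    · simp [hi]
  rw [e]
  refine h _ _ (ih _ ?_)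
  rw [e] at hn
  simp only [Pi.add_apply, Finset.sum_add_distrib, Finset.sum_pi_single', Finset.mem_univ,
    if_true] at hn
  omega

/-- the product ideal of a multi-index -/
def PI (I : σ → Ideal A) (b : σ → ℕ) : Ideal A := ∏ i, I i ^ b i

theorem PI_zero (I : σ → Ideal A) : PI I 0 = ⊤ := by simp [PI]

theorem PI_succ [DecidableEq σ] (I : σ → Ideal A) (b : σ → ℕ) (j : σ) :
    PI I (b + Pi.single j 1) = PI I b * I j := by
  simp only [PI, Pi.add_apply, pow_add, Finset.prod_mul_distrib]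
  rw [Finset.prod_eq_single j (f := fun i => I i ^ Pi.single (M := fun _ => ℕ) j 1 i)
    (fun i _ hi => by simp [hi]) (by simp)]
  simp

theorem zm_succ [DecidableEq σ] (a : σ → ℕ) (j : σ) :
    (zm (a + Pi.single j 1) : O p K σ) = zm a * z j := by rw [zm_add, zm_single, pow_one]

theorem zm_zero' : (zm (0 : σ → ℕ) : O p K σ) = 1 := by simp [zm]

theorem map_zm_mem {I : σ → Ideal A} {ψ : O p K σ →ₐ[K] A} (h : ∀ i, ψ (z i) ∈ I i) (a : σ → ℕ) :
    ψ (zm a) ∈ PI I a := by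
  classical
  induction a using pi_ind with
  | h0 => simp [PI_zero]
  | h a j ih => rw [zm_succ, map_mul, PI_succ]; exact Ideal.mul_mem_mul ih (h j)

/-- the carrier of `g`: it contains `ψ g` whenever `ψ (z i) ∈ I i` -/
def Car (I : σ → Ideal A) (g : O p K σ) : Ideal A := ⨆ b, ⨆ _ : cf b g ≠ 0, PI I b

omit [Algebra K A] in
theorem Car_le {I : σ → Ideal A} {g : O p K σ} {E : Ideal A} :
    Car I g ≤ E ↔ ∀ b, cf b g ≠ 0 → PI I b ≤ E := iSup₂_le_iff

omit [Algebra K A] in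
theorem le_Car {I : σ → Ideal A} {g : O p K σ} {b : σ → ℕ} (h : cf b g ≠ 0) : PI I b ≤ Car I g :=
  Car_le.1 le_rfl b h

omit [Algebra K A] in
theorem Car_zero (I : σ → Ideal A) : Car I (0 : O p K σ) = ⊥ :=
  le_bot_iff.1 (Car_le.2 fun _ h => absurd (map_zero _) h)

/-- membership can be tested on the monomials that occur -/
theorem mem_of_cf {M : Type*} [AddCommGroup M] [Module K M] (L : O p K σ →ₗ[K] M)
    {E : Submodule K M} {g : O p K σ} (h : ∀ a, cf a g ≠ 0 → L (zm a) ∈ E) : L g ∈ E := by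
  classical
  rw [← sum_cf g, map_sum]
  refine sum_mem fun a _ => ?_
  by_cases ha : cf a g = 0
  · simp [ha]
  · rw [map_smul]; exact E.smul_mem _ (h a ha)

theorem map_mem_Car {I : σ → Ideal A} {ψ : O p K σ →ₐ[K] A} (h : ∀ i, ψ (z i) ∈ I i)
    (g : O p K σ) : ψ g ∈ Car I g :=
  mem_of_cf ψ.toLinearMap (E := (Car I g).restrictScalars K) fun a ha => le_Car ha (map_zm_mem h a)

omit [Algebra K A] in
theorem Car_mx [Fact p.Prime] {I : σ → Ideal A} {m : Ideal A} (h : ∀ i, I i ≤ m) {g : O p K σ}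
    (hg : g ∈ mx) : Car I g ≤ m := by
  classical
  refine Car_le.2 fun b hb => ?_
  induction b using pi_ind with
  | h0 => exact absurd ((cf_zero g).trans (mem_mx.1 hg)) hb
  | h a j _ => rw [PI_succ]; exact Ideal.mul_le_right.trans (h j)

section Tay

variable [Fact p.Prime] [Fact ((p : K) = 0)]

theorem cf_pd_ne [DecidableEq σ] {b : σ → ℕ} {x : σ} {g : O p K σ} :
    cf b (pd x g) ≠ 0 ↔ cf (b + Pi.single x 1) g ≠ 0 := by
  rw [cf_pd]
  refine ⟨fun h h' => h (by rw [h', smul_zero]), fun h h' => h ?_⟩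
  have h1 : b x + 1 < p := by
    by_contra h1
    exact h (cf_of_not (fun h2 => h1 (by simpa using h2 x)) g)
  rw [nsmul_eq_mul] at h'
  exact (natCast_unit (Fact.out : (p : K) = 0) (Nat.succ_ne_zero _) h1).mul_right_eq_zero.1 h'

variable {I : σ → Ideal A} {ψ ψ' : O p K σ →ₐ[K] A}

omit [Fact p.Prime] in
theorem tay_zm [DecidableEq σ] (h : ∀ i, ψ (z i) ∈ I i) (h' : ∀ i, ψ' (z i) ∈ I i) (a : σ → ℕ) :
    (ψ' (zm a) - ψ (zm a) ∈ ⨆ x, ⨆ b, ⨆ _ : b + Pi.single x 1 = a,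
      Ideal.span {ψ' (z x) - ψ (z x)} * PI I b) ∧
    ψ' (zm a) - ψ (zm a) - ∑ x, (ψ' (z x) - ψ (z x)) * ψ (pd x (zm a)) ∈
      ⨆ x, ⨆ y, ⨆ b, ⨆ _ : b + Pi.single x 1 + Pi.single y 1 = a,
        Ideal.span {ψ' (z x) - ψ (z x)} * Ideal.span {ψ' (z y) - ψ (z y)} * PI I b := by
  induction a using pi_ind with
  | h0 => simp
  | h a j ih =>
    have s1 := Ideal.mem_span_singleton_self (ψ' (z j) - ψ (z j))
    refine ⟨?_, ?_⟩
    · have e : ψ' (zm (a + Pi.single j 1)) - ψ (zm (a + Pi.single j 1)) =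
          (ψ' (zm a) - ψ (zm a)) * ψ (z j) + (ψ' (z j) - ψ (z j)) * ψ' (zm a) := by
        simp only [zm_succ, map_mul]; ring
      rw [e]
      refine add_mem ((?_ : _ * I j ≤ _) (Ideal.mul_mem_mul ih.1 (h j)))
        (Ideal.mem_iSup_of_mem j (Ideal.mem_iSup_of_mem a (Ideal.mem_iSup_of_mem rfl
          (Ideal.mul_mem_mul s1 (map_zm_mem h' a)))))
      simp only [Submodule.iSup_mul, iSup_le_iff]
      rintro x b rfl
      rw [mul_assoc, ← PI_succ]
      exact le_iSup_of_le x (le_iSup₂_of_le _ (add_right_comm _ _ _) le_rfl)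
    · have e : ψ' (zm (a + Pi.single j 1)) - ψ (zm (a + Pi.single j 1)) -
          ∑ x, (ψ' (z x) - ψ (z x)) * ψ (pd x (zm (a + Pi.single j 1))) =
          (ψ' (zm a) - ψ (zm a) - ∑ x, (ψ' (z x) - ψ (z x)) * ψ (pd x (zm a))) * ψ (z j) +
            (ψ' (zm a) - ψ (zm a)) * (ψ' (z j) - ψ (z j)) := by
        simp only [zm_succ, map_mul, Derivation.leibniz, smul_eq_mul, map_add, pd_z, apply_ite ψ,
          map_zero, mul_ite, mul_one, mul_zero, mul_add, Finset.sum_add_distrib,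
          Finset.sum_ite_eq', Finset.mem_univ, if_true, sub_mul, Finset.sum_mul]
        simp only [mul_comm (ψ (z j)), ← mul_assoc]
        ring
      rw [e]
      refine add_mem ((?_ : _ * I j ≤ _) (Ideal.mul_mem_mul ih.2 (h j)))
        ((?_ : _ * Ideal.span {ψ' (z j) - ψ (z j)} ≤ _) (Ideal.mul_mem_mul ih.1 s1))
      · simp only [Submodule.iSup_mul, iSup_le_iff]
        rintro x y b rfl
        rw [mul_assoc, ← PI_succ]
        exact le_iSup_of_le x (le_iSup_of_le y (le_iSup₂_of_le _ (by ac_rfl) le_rfl))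
      · simp only [Submodule.iSup_mul, iSup_le_iff]
        rintro x b rfl
        rw [mul_right_comm]
        exact le_iSup_of_le x (le_iSup_of_le j (le_iSup₂_of_le b rfl le_rfl))

/-- first order Taylor formula with carriers -/
theorem tay1 (h : ∀ i, ψ (z i) ∈ I i) (h' : ∀ i, ψ' (z i) ∈ I i) (g : O p K σ) {E : Ideal A}
    (hE : ∀ x, Ideal.span {ψ' (z x) - ψ (z x)} * Car I (pd x g) ≤ E) : ψ' g - ψ g ∈ E := by
  classical
  refine mem_of_cf (ψ'.toLinearMap - ψ.toLinearMap) (E := E.restrictScalars K) fun a ha =>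
    (?_ : _ ≤ E) (tay_zm h h' a).1
  simp only [iSup_le_iff]
  rintro x b rfl
  exact (Ideal.mul_mono_right (le_Car (cf_pd_ne.2 ha))).trans (hE x)

/-- second order Taylor formula with carriers -/
theorem tay2 (h : ∀ i, ψ (z i) ∈ I i) (h' : ∀ i, ψ' (z i) ∈ I i) (g : O p K σ) {E : Ideal A}
    (hE : ∀ x y, Ideal.span {ψ' (z x) - ψ (z x)} * Ideal.span {ψ' (z y) - ψ (z y)} *
      Car I (pd x (pd y g)) ≤ E) :
    ψ' g - ψ g - ∑ x, (ψ' (z x) - ψ (z x)) * ψ (pd x g) ∈ E := by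
  classical
  have := mem_of_cf (ψ'.toLinearMap - ψ.toLinearMap - ∑ x, LinearMap.mulLeft K (ψ' (z x) - ψ (z x))
    ∘ₗ ψ.toLinearMap ∘ₗ (pd x : Derivation K (O p K σ) _).toLinearMap) (g := g)
    (E := E.restrictScalars K) fun a ha => by
      have : _ ∈ E := (?_ : _ ≤ E) (tay_zm h h' a).2
      · simpa using this
      simp only [iSup_le_iff]
      rintro x y b rfl
      exact (Ideal.mul_mono_right (le_Car (cf_pd_ne.2 (cf_pd_ne.2 ha)))).trans (hE x y)
  simpa using this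

end Tay

/-- what can be absorbed by shifts in `J`, up to `H` -/
def EE (J : σ → Ideal A) (d : σ → A) (H : Ideal A) : Ideal A :=
  (⨆ x, J x * Ideal.span {d x}) ⊔ H

omit [Fintype σ] in
theorem le_EE (J : σ → Ideal A) (d : σ → A) (H : Ideal A) (x : σ) :
    J x * Ideal.span {d x} ≤ EE J d H := le_sup_of_le_left (le_iSup (fun x => J x * Ideal.span {d x}) x)

omit [Fintype σ] in
theorem H_le_EE (J : σ → Ideal A) (d : σ → A) (H : Ideal A) : H ≤ EE J d H := le_sup_right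

omit [Fintype σ] in
theorem mul_mem_EE {J : σ → Ideal A} (d : σ → A) (H : Ideal A) {x : σ} {a : A} (h : a ∈ J x) :
    a * d x ∈ EE J d H := le_EE J d H x (Ideal.mul_mem_mul h (Ideal.mem_span_singleton_self _))

theorem mem_EE {J : σ → Ideal A} {d : σ → A} {H : Ideal A} {P : A} :
    P ∈ EE J d H ↔ ∃ a : σ → A, (∀ x, a x ∈ J x) ∧ P - ∑ x, a x * d x ∈ H := by
  classical
  refine ⟨fun h => ?_, fun ⟨a, ha, h⟩ => by
    simpa using add_mem (H_le_EE J d H h) (sum_mem fun x (_ : x ∈ Finset.univ) => mul_mem_EE d H (ha x))⟩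
  obtain ⟨P1, h1, P2, h2, rfl⟩ := Submodule.mem_sup.1 h
  suffices ∃ a : σ → A, (∀ x, a x ∈ J x) ∧ P1 = ∑ x, a x * d x by
    obtain ⟨a, ha, rfl⟩ := this
    exact ⟨a, ha, by simpa using h2⟩
  clear h
  induction h1 using Submodule.iSup_induction' with
  | mem x P hP =>
    obtain ⟨a, ha, rfl⟩ := Ideal.mem_mul_span_singleton.1 hP
    refine ⟨Pi.single x a, fun y => ?_, by simp [Pi.single_apply]⟩
    rcases eq_or_ne y x with rfl | hy
    · simpa using ha
    · simp [hy]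
  | zero => exact ⟨0, fun _ => zero_mem _, by simp⟩
  | add P Q _ _ h1 h2 =>
    obtain ⟨a, ha, rfl⟩ := h1
    obtain ⟨b, hb, rfl⟩ := h2
    exact ⟨a + b, fun x => add_mem (ha x) (hb x), by simp [add_mul, Finset.sum_add_distrib]⟩

section Toug

variable [Fact p.Prime] [Fact ((p : K) = 0)] {Γ : Type*} [AddCommGroup Γ] [Fintype Γ]
  [DecidableEq Γ] {GO : Gr Γ K (O p K σ)} {G : Gr Γ K A} {d : σ → Γ}

/-- **Weighted Tougeron**: shift ideals `J k x` for every variable `x` and level `k` -/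
theorem toug_w (hO : ∀ i, GO.Hg (d i) (z i)) {D : Γ} {W : O p K σ} (hW : GO.Hg D W)
    {I : σ → Ideal A} (hp : ∀ i, ∀ x ∈ I i, x ^ p = 0) {J : ℕ → σ → Ideal A} {H : Ideal A}
    (gJ : ∀ k x, G.Id (J k x)) (gH : G.Id H) (h0 : ∀ k x, J k x ≤ J 0 x) (hI : ∀ x, J 0 x ≤ I x)
    {φ : O p K σ →ₐ[K] A} (hφ : ∀ u, G.Hg (d u) (φ (z u)) ∧ φ (z u) ∈ I u)
    (hJ : ∀ k x y, J k x * J 0 y * Car I (pd x (pd y W)) ≤ EE (J (k + 1)) (fun x => φ (pd x W)) H)
    {P : A} (hP : G.Hg D P) (hE : P ∈ EE (J 0) (fun x => φ (pd x W)) H) (n : ℕ) :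
    ∃ ψ : O p K σ →ₐ[K] A, (∀ u, G.Hg (d u) (ψ (z u)) ∧ ψ (z u) - φ (z u) ∈ J 0 u) ∧
      ψ W - φ W - P ∈ EE (J n) (fun x => φ (pd x W)) H := by
  induction n with
  | zero => exact ⟨φ, fun u => ⟨(hφ u).1, by simp⟩, by simpa using hE⟩
  | succ n ih =>
    obtain ⟨ψ, h1, h2⟩ := ih
    obtain ⟨a0, ha0, e0⟩ := mem_EE.1 h2
    have g0 := hom_of_z hO fun u => (hφ u).1
    have g1 := hom_of_z hO fun u => (h1 u).1
    have e1 := gH D _ e0
    rw [map_sub, pr_sum fun x => g0.hg (hg_pd hO hW x),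
      show G.pr D _ = _ from ((g1.hg hW).sub (g0.hg hW)).sub hP] at e1
    set a := fun x => G.pr (d x) (a0 x)
    have ha : ∀ x, a x ∈ J n x := fun x => gJ n x _ _ (ha0 x)
    have m1 : ∀ u, ψ (z u) ∈ I u := fun u => by simpa using add_mem (hI u (h1 u).2) (hφ u).2
    have m2 : ∀ u, ψ (z u) - a u ∈ I u := fun u => sub_mem (m1 u) (hI u (h0 n u (ha u)))
    let ψ' : O p K σ →ₐ[K] A := lift (fun u => ψ (z u) - a u) fun u => hp u _ (m2 u)
    have z' : ∀ u, ψ' (z u) = ψ (z u) - a u := fun u => lift_z _ _ _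
    have s' : ∀ u, Ideal.span {ψ' (z u) - ψ (z u)} ≤ J n u := fun u =>
      (Ideal.span_singleton_le_iff_mem _).2 (by simpa [z'] using ha u)
    refine ⟨ψ', fun u => ⟨z' u ▸ (h1 u).1.sub (G.hg_pr _ _), ?_⟩, ?_⟩
    · rw [z', sub_right_comm]; exact sub_mem (h1 u).2 (h0 n u (ha u))
    have t2 := tay2 m1 (fun u => z' u ▸ m2 u) W fun x y =>
      (Ideal.mul_mono_left (Ideal.mul_mono (s' x) ((s' y).trans (h0 n y)))).trans (hJ n x y)
    have t1 : ∀ x, a x * (ψ (pd x W) - φ (pd x W)) ∈ EE (J (n + 1)) (fun x => φ (pd x W)) H :=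
      fun x => by
      have := tay1 (fun u => (hφ u).2) m1 (pd x W)
        (E := Submodule.comap (LinearMap.mulLeft A (a x)) (EE (J (n + 1)) (fun x => φ (pd x W)) H))
        fun y f hf => hJ n x y (by
          rw [mul_assoc, pd_comm]
          exact Ideal.mul_mem_mul (ha x) (Ideal.mul_mono_left
            ((Ideal.span_singleton_le_iff_mem _).2 (h1 y).2) hf))
      exact this
    convert add_mem (sub_mem t2 (sum_mem fun x (_ : x ∈ Finset.univ) => t1 x)) (H_le_EE _ _ _ e1)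
      using 1
    simp only [z', sub_sub_cancel_left, neg_mul, mul_sub, Finset.sum_sub_distrib,
      Finset.sum_neg_distrib]
    ring

end Toug

/-! ### weights -/

/-- a multiplicative filtration -/
structure Flt (Fl : ℤ → Ideal A) : Prop where
  zero : Fl 0 = ⊤
  anti : Antitone Fl
  mul : ∀ n m, Fl n * Fl m ≤ Fl (n + m)

theorem Flt.mul_le {Fl : ℤ → Ideal A} (h : Flt Fl) {n m k : ℤ} {I J : Ideal A} (hI : I ≤ Fl n)
    (hJ : J ≤ Fl m) (hk : k ≤ n + m) : I * J ≤ Fl k :=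
  (Ideal.mul_mono hI hJ).trans ((h.mul n m).trans (h.anti hk))

/-- the weight of a multi-index -/
def wt (F : σ → ℕ) (a : σ → ℕ) : ℕ := ∑ v, a v * F v

theorem wt_add (F a b : σ → ℕ) : wt F (a + b) = wt F a + wt F b := by
  simp [wt, add_mul, Finset.sum_add_distrib]

theorem wt_single [DecidableEq σ] (F : σ → ℕ) (j : σ) : wt F (Pi.single j 1) = F j := by
  simp [wt, Pi.single_apply]

theorem PI_le {Fl : ℤ → Ideal A} (h : Flt Fl) {F : σ → ℕ} {I : σ → Ideal A}
    (hI : ∀ i, I i ≤ Fl (F i)) (b : σ → ℕ) : PI I b ≤ Fl (wt F b) := by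
  classical
  induction b using pi_ind with
  | h0 => simp [wt, h.zero]
  | h a j ih => rw [PI_succ, wt_add, wt_single]; exact h.mul_le ih (hI j) (by simp)

/-- the ideal spanned by the monomials of weight `≥ n` -/
def Ge (p : ℕ) (K : Type) [CommRing K] (F : σ → ℕ) (n : ℤ) : Ideal (O p K σ) :=
  Ideal.span {f | ∃ a, n ≤ wt F a ∧ f = zm a}

variable {F : σ → ℕ} {n : ℤ}

theorem zm_mem_Ge {a : σ → ℕ} (h : n ≤ wt F a) : (zm a : O p K σ) ∈ Ge p K F n :=
  Ideal.subset_span ⟨a, h, rfl⟩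

theorem mem_Ge {f : O p K σ} : f ∈ Ge p K F n ↔ ∀ a, cf a f ≠ 0 → n ≤ wt F a := by
  classical
  refine ⟨fun h => ?_, fun h => mem_of_cf LinearMap.id (E := (Ge p K F n).restrictScalars K)
    fun a ha => zm_mem_Ge (h a ha)⟩
  suffices ∀ g a, ¬ n ≤ wt F a → cf a (g * f) = 0 from fun a ha => by
    by_contra h'
    exact ha (by simpa using this 1 a h')
  induction h using Submodule.span_induction with
  | mem x hx =>
    obtain ⟨b, hb, rfl⟩ := hx
    intro g a ha
    induction g using induction_zm with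
    | h0 => simp
    | hm c a' _ =>
      rw [smul_mul_assoc, ← zm_add, map_smul, cf_zm, if_neg, smul_zero]
      rintro ⟨rfl, -⟩
      exact ha (by rw [wt_add]; omega)
    | hadd f g h1 h2 => rw [add_mul, map_add, h1, h2, add_zero]
  | zero => simp
  | add x y _ _ h1 h2 => intro g a ha; rw [mul_add, map_add, h1 g a ha, h2 g a ha, add_zero]
  | smul c x _ h1 => intro g a ha; rw [smul_eq_mul, ← mul_assoc, h1 _ a ha]

theorem flt_Ge (F : σ → ℕ) : Flt (Ge p K F) where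
  zero := (Ideal.eq_top_iff_one _).2 (zm_zero' (p := p) (K := K) (σ := σ) ▸ zm_mem_Ge (by simp))
  anti _ _ h := Ideal.span_mono fun _ ⟨a, ha, e⟩ => ⟨a, h.trans ha, e⟩
  mul n m := by
    rw [Ge, Ge, Ideal.span_mul_span', Ideal.span_le]
    rintro _ ⟨_, ⟨a, ha, rfl⟩, _, ⟨b, hb, rfl⟩, rfl⟩
    simp only [← zm_add]
    exact zm_mem_Ge (by rw [wt_add]; omega)

theorem z_mem_Ge (F : σ → ℕ) (i : σ) : (z i : O p K σ) ∈ Ge p K F (F i) := by
  classical
  rw [← pow_one (z i), ← zm_single]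
  exact zm_mem_Ge (by rw [wt_single])

theorem Ge_bot (F : σ → ℕ) : ∃ N : ℕ, ∀ n : ℤ, N ≤ n → Ge p K F n = ⊥ := by
  refine ⟨wt F (fun _ => p) + 1, fun n hn => le_bot_iff.1 (Ideal.span_le.2 ?_)⟩
  rintro _ ⟨a, ha, rfl⟩
  refine zm_eq_zero fun h => ?_
  have : wt F a ≤ wt F fun _ => p := Finset.sum_le_sum fun i _ => Nat.mul_le_mul_right _ (h i).le
  omega

theorem Ge_le_mx [Fact p.Prime] (hn : 1 ≤ n) : Ge p K F n ≤ mx := fun f hf => by
  rw [mem_mx, ← cf_zero]
  by_contra h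
  have := mem_Ge.1 hf 0 h
  simp [wt] at this
  omega

theorem mx_le_Ge (h : ∀ i, 0 < F i) : mx ≤ Ge p K F 1 :=
  Ideal.span_le.2 (by
    rintro _ ⟨i, rfl⟩
    exact (flt_Ge F).anti (by have := h i; omega) (z_mem_Ge F i))

omit [Algebra K A] in
theorem Car_Ge {Fl : ℤ → Ideal A} (h : Flt Fl) {I : σ → Ideal A} (hI : ∀ i, I i ≤ Fl (F i))
    {g : O p K σ} (hg : g ∈ Ge p K F n) : Car I g ≤ Fl n :=
  Car_le.2 fun b hb => (PI_le h hI b).trans (h.anti (mem_Ge.1 hg b hb))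

theorem map_Ge {Fl : ℤ → Ideal A} (h : Flt Fl) {ψ : O p K σ →ₐ[K] A} (hψ : ∀ i, ψ (z i) ∈ Fl (F i))
    {g : O p K σ} (hg : g ∈ Ge p K F n) : ψ g ∈ Fl n :=
  Car_Ge h (fun _ => le_rfl) hg (map_mem_Car hψ g)

variable [Fact p.Prime] [Fact ((p : K) = 0)]

theorem pd_Ge {g : O p K σ} (hg : g ∈ Ge p K F n) (x : σ) : pd x g ∈ Ge p K F (n - F x) := by
  classical
  refine mem_Ge.2 fun a ha => ?_
  have := mem_Ge.1 hg _ (cf_pd_ne.1 ha)
  rw [wt_add, wt_single] at this
  omega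

theorem sub_Ge {Fl : ℤ → Ideal A} (h : Flt Fl) {ψ ψ' : O p K σ →ₐ[K] A}
    (hψ : ∀ i, ψ (z i) ∈ Fl (F i)) (hψ' : ∀ i, ψ' (z i) ∈ Fl (F i)) {k : ℤ}
    (hd : ∀ i, ψ' (z i) - ψ (z i) ∈ Fl (F i + k)) {g : O p K σ} (hg : g ∈ Ge p K F n) :
    ψ' g - ψ g ∈ Fl (n + k) :=
  tay1 hψ hψ' g fun x => h.mul_le ((Ideal.span_singleton_le_iff_mem _).2 (hd x))
    (Car_Ge h (fun _ => le_rfl) (pd_Ge hg x)) (by omega)


end Crest.Agent.N255.Tg

end
end

-- ▼ part N255/Tg/Ph

/-!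
# Row 255 (helper23): ideal arithmetic for the vertex absorption, the weighted Morse lemma
-/

set_option autoImplicit false
open Set Function

noncomputable section

namespace Crest.Agent.N255.Tg

open _root_.N255.Dr _root_.N255.Dr.O Cs

section Gen

variable {K A : Type*} [CommRing K] [CommRing A] [Algebra K A]

/-- the trivial grading -/
def triv (K A : Type*) [CommRing K] [CommRing A] [Algebra K A] : Gr Unit K A where
  pr _ := LinearMap.id
  sum x := by simp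
  idem a b x := by simp
  mul _ _ _ _ := rfl
  one := rfl


theorem triv_id (I : Ideal A) : (triv K A).Id I := fun _ _ h => h

end Gen

variable {A : Type*} [CommRing A] {X : Type} {m : Ideal A} {Fl : ℤ → Ideal A}

/-- order at least `i` and weight at least `n` -/
def WW (m : Ideal A) (Fl : ℤ → Ideal A) (i : ℕ) (n : ℤ) : Ideal A := m ^ i ⊓ Fl n

theorem WW_le (fl : Flt Fl) {i j : ℕ} {n l : ℤ} (hi : j ≤ i) (hn : l ≤ n) :
    WW m Fl i n ≤ WW m Fl j l := inf_le_inf (Ideal.pow_le_pow_right hi) (fl.anti hn)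

theorem WW_mul (fl : Flt Fl) {i i' j : ℕ} {n n' l : ℤ} (hi : j ≤ i + i') (hn : l ≤ n + n') :
    WW m Fl i n * WW m Fl i' n' ≤ WW m Fl j l :=
  le_inf ((Ideal.mul_mono inf_le_left inf_le_left).trans
    (by rw [← pow_add]; exact Ideal.pow_le_pow_right hi)) (fl.mul_le inf_le_right inf_le_right hn)

theorem WW_top (fl : Flt Fl) : WW m Fl 0 0 = ⊤ := by simp [WW, fl.zero]

theorem WW_zero (fl : Flt Fl) (i : ℕ) : WW m Fl i 0 = m ^ i := by simp [WW, fl.zero]

theorem WW_mul0 (fl : Flt Fl) {i i' j : ℕ} {n n' : ℤ} (hi : j ≤ i + i') :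
    WW m Fl i n * WW m Fl i' n' ≤ WW m Fl j 0 := by
  rw [WW_zero fl]
  exact (Ideal.mul_mono inf_le_left inf_le_left).trans
    (by rw [← pow_add]; exact Ideal.pow_le_pow_right hi)

/-- a hyperbolic index set with weights -/
structure Hyp (X : Type) where
  bar : X → X
  ty : X → Bool
  F : X → ℤ
  bb : ∀ q, bar (bar q) = q
  tb : ∀ q, ty (bar q) = !ty q

namespace Hyp

variable (h : Hyp X)

/-- the weight of the coefficient of `r a` in a shift of the coordinate `q` -/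
def mw (q a : X) : ℤ := max (h.F q + 1 - h.F a) (h.F (h.bar a) + 1 - h.F (h.bar q))

/-- shifts in the Morse lemma -/
def JM (m : Ideal A) (Fl : ℤ → Ideal A) (r : X → A) (k : ℕ) (q : X) : Ideal A :=
  ⨆ a, Ideal.span {r a} * WW m Fl (if h.ty q = true then 0 else 1) (h.mw q a + k)

/-- shifts of the Gaussian variables in the final absorption -/
def Jz (m : Ideal A) (Fl : ℤ → Ideal A) (μ : ℤ) (ρ : X → A) (Λ K : Ideal A) (k : ℕ) (q : X) :
    Ideal A :=
  Λ * WW m Fl (if h.ty q = true then (k + 1) / 2 else k / 2 + 1) (h.F q + 1 - μ) ⊔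
    K * WW m Fl (if h.ty q = true then k / 2 else (k + 1) / 2) 0 ⊔
    ⨆ a, Ideal.span {ρ a} * WW m Fl ((k + 1) / 2 + 1) (h.mw q a)

end Hyp

/-- shifts of the far variables in the final absorption -/
def Jf (m : Ideal A) (Fl : ℤ → Ideal A) (Λ K : Ideal A) (k : ℕ) : Ideal A :=
  Λ * WW m Fl ((k + 1) / 2) 0 ⊔ K * WW m Fl (k / 2) 0

theorem Hyp.JM_mul (h : Hyp X) (fl : Flt Fl) (r : X → A) (k : ℕ) (q : X) {E : Ideal A}
    (hE : ∀ a, h.JM m Fl r (k + 1) (h.bar a) * Ideal.span {r a} ≤ E) :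
    h.JM m Fl r k q * h.JM m Fl r 0 (h.bar q) ≤ E := by
  simp only [Hyp.JM, Submodule.iSup_mul, Submodule.mul_iSup, iSup_le_iff]
  intro b a
  refine le_trans ?_ (hE a)
  rw [mul_mul_mul_comm, mul_comm (Ideal.span {r a}), mul_right_comm]
  refine Ideal.mul_mono_left (le_iSup_of_le b (Ideal.mul_mono_right (WW_mul fl ?_ ?_)))
  · rw [h.tb q]; cases h.ty q <;> split_ifs <;> simp_all
  · simp only [Hyp.mw, h.bb]; push_cast; omega

/-- change of generators -/
theorem Hyp.conv (h : Hyp X) {r ρ : X → A} (hρ : ∀ q, ρ q - r q ∈ h.JM m Fl r 0 q)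
    {B : ℕ → X → Ideal A} {N : ℕ} (hN : ∀ a, B N a = ⊥) (ha : ∀ n a, B (n + 1) a ≤ B n a)
    (hB : ∀ n q a, WW m Fl (if h.ty q = true then 0 else 1) (h.mw q a) * B n q ≤ B (n + 1) a) :
    ⨆ a, Ideal.span {r a} * B 0 a ≤ ⨆ a, Ideal.span {ρ a} * B 0 a := by
  have key : ∀ k n, n + k = N →
      ⨆ a, Ideal.span {r a} * B n a ≤ ⨆ a, Ideal.span {ρ a} * B n a := by
    intro k
    induction k with
    | zero => intro n hn; simp [show n = N from hn, hN]
    | succ k ih =>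
      intro n hn
      refine iSup_le fun q => ?_
      have h1 : Ideal.span {r q} ≤ Ideal.span {ρ q} ⊔ h.JM m Fl r 0 q :=
        (Ideal.span_singleton_le_iff_mem _).2 (by
          simpa using sub_mem (Ideal.mem_sup_left (Ideal.mem_span_singleton_self (ρ q)))
            (Ideal.mem_sup_right (hρ q)))
      refine (Ideal.mul_mono_left h1).trans ?_
      rw [Ideal.sup_mul]
      refine sup_le (le_iSup (fun a => Ideal.span {ρ a} * B n a) q) (le_trans ?_
        ((ih (n + 1) (by omega)).trans (iSup_mono fun a => Ideal.mul_mono_right (ha n a))))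
      rw [Hyp.JM, Submodule.iSup_mul]
      refine iSup_mono fun a => ?_
      rw [mul_assoc, Nat.cast_zero, add_zero]
      exact Ideal.mul_mono_right (hB n q a)
  exact key N 0 (zero_add N)

/-- the two phase estimate -/
theorem Hyp.phase (h : Hyp X) (fl : Flt Fl) {μ κ : ℤ} (hκ : ∀ q, h.F q < κ) {ρ : X → A}
    {Λ K H T J0 J1 : Ideal A} {E : ℕ → Ideal A} (hH : ∀ k, H ≤ E k) (KK : K * K ≤ H)
    (hz : ∀ k a, h.Jz m Fl μ ρ Λ K k (h.bar a) * Ideal.span {ρ a} ≤ E k)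
    (hf : ∀ k, Jf m Fl Λ K k * J1 ≤ E k)
    (hJ : J0 ≤ J1 ⊔ ⨆ q, Ideal.span {ρ q} *
      WW m Fl (if h.ty q = true then 1 else 0) (h.F (h.bar q) + 1 - μ))
    (hΛ : Λ ≤ J0 ⊔ T) (hT : T ≤ Λ) (hT' : T ≤ K ⊔ ⨆ a, Ideal.span {ρ a} * WW m Fl 1 (κ - h.F a)) :
    Λ * (J0 ⊔ T) ≤ E 0 ∧ (∀ k, Jf m Fl Λ K k * Jf m Fl Λ K 0 * m ≤ E (k + 1)) ∧
      ∀ k q, h.Jz m Fl μ ρ Λ K k q * h.Jz m Fl μ ρ Λ K 0 (h.bar q) ≤ E (k + 1) := by
  have Kr : ∀ k a {I : Ideal A}, I ≤ WW m Fl (if h.ty a = true then (k + 1) / 2 else k / 2) 0 →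
      K * (Ideal.span {ρ a} * I) ≤ E k := fun k a I hI => by
    refine le_trans ?_ (hz k a)
    rw [mul_comm _ I, ← mul_assoc]
    refine Ideal.mul_mono_left (le_sup_of_le_left (le_sup_of_le_right
      (Ideal.mul_mono_right (hI.trans (WW_le fl ?_ le_rfl)))))
    rw [h.tb]; cases h.ty a <;> simp
  have Lr : ∀ k a {I : Ideal A}, I ≤ WW m Fl (if h.ty a = true then k / 2 + 1 else (k + 1) / 2)
      (h.F (h.bar a) + 1 - μ) → Λ * (Ideal.span {ρ a} * I) ≤ E k := fun k a I hI => by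
    refine le_trans ?_ (hz k a)
    rw [mul_comm _ I, ← mul_assoc]
    refine Ideal.mul_mono_left (le_sup_of_le_left (le_sup_of_le_left
      (Ideal.mul_mono_right (hI.trans (WW_le fl ?_ le_rfl)))))
    rw [h.tb]; cases h.ty a <;> simp
  have rr : ∀ k a b {I : Ideal A}, I ≤ WW m Fl ((k + 1) / 2 + 1) (h.mw (h.bar a) b) →
      Ideal.span {ρ a} * (Ideal.span {ρ b} * I) ≤ E k := fun k a b I hI => by
    refine le_trans ?_ (hz k a)
    rw [mul_comm]
    exact Ideal.mul_mono_left (le_sup_of_le_right (le_iSup_of_le b (Ideal.mul_mono_right hI)))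
  have KE : ∀ k (I : Ideal A), K * K * I ≤ E k := fun k I =>
    Ideal.mul_le_left.trans (KK.trans (hH k))
  have jL : ∀ k i, (k + 1) / 2 ≤ i → Λ * J0 * WW m Fl i 0 ≤ E k := fun k i hi => by
    refine (Ideal.mul_mono_left (Ideal.mul_mono_right hJ)).trans ?_
    simp only [Ideal.mul_sup, Ideal.sup_mul, Submodule.iSup_mul, Submodule.mul_iSup, sup_le_iff,
      iSup_le_iff]
    refine ⟨le_trans ?_ (hf k), fun q => ?_⟩
    · rw [mul_right_comm]
      exact Ideal.mul_mono_left (le_sup_of_le_left (Ideal.mul_mono_right (WW_le fl hi le_rfl)))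
    · rw [mul_assoc, mul_assoc]
      exact Lr k q (WW_mul fl (by split_ifs <;> omega) (by omega))
  have jK : ∀ k i, k / 2 ≤ i → K * J0 * WW m Fl i 0 ≤ E k := fun k i hi => by
    refine (Ideal.mul_mono_left (Ideal.mul_mono_right hJ)).trans ?_
    simp only [Ideal.mul_sup, Ideal.sup_mul, Submodule.iSup_mul, Submodule.mul_iSup, sup_le_iff,
      iSup_le_iff]
    refine ⟨le_trans ?_ (hf k), fun q => ?_⟩
    · rw [mul_right_comm]
      exact Ideal.mul_mono_left (le_sup_of_le_right (Ideal.mul_mono_right (WW_le fl hi le_rfl)))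
    · rw [mul_assoc, mul_assoc]
      exact Kr k q (WW_mul0 fl (by split_ifs <;> omega))
  have KT : ∀ k i, k / 2 ≤ i → K * T * WW m Fl i 0 ≤ E k := fun k i hi => by
    refine (Ideal.mul_mono_left (Ideal.mul_mono_right hT')).trans ?_
    simp only [Ideal.mul_sup, Ideal.sup_mul, Submodule.iSup_mul, Submodule.mul_iSup, sup_le_iff,
      iSup_le_iff]
    refine ⟨KE k _, fun q => ?_⟩
    rw [mul_assoc, mul_assoc]
    exact Kr k q (WW_mul0 fl (by split_ifs <;> omega))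
  have TT : ∀ k i, (k + 1) / 2 ≤ i → T * T * WW m Fl i 0 ≤ E k := fun k i hi => by
    refine (Ideal.mul_mono_left (Ideal.mul_mono_left hT')).trans ?_
    rw [Ideal.sup_mul, Ideal.sup_mul]
    refine sup_le (KT k i (by omega)) ((Ideal.mul_mono_left (Ideal.mul_mono_right hT')).trans ?_)
    simp only [Ideal.mul_sup, Ideal.sup_mul, Submodule.iSup_mul, Submodule.mul_iSup, sup_le_iff,
      iSup_le_iff]
    refine ⟨fun q => ?_, fun b a => ?_⟩
    · rw [mul_comm _ K, mul_assoc, mul_assoc]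
      exact Kr k q (WW_mul0 fl (by split_ifs <;> omega))
    · rw [mul_mul_mul_comm, mul_assoc, mul_assoc]
      refine rr k a b ((Ideal.mul_mono_left (WW_mul (j := 2) fl le_rfl le_rfl)).trans
        (WW_mul fl (by omega) ?_))
      have := hκ a; have := hκ b; have := hκ (h.bar a); have := hκ (h.bar b)
      simp only [Hyp.mw, h.bb]; omega
  have LL' : ∀ k i, (k + 1) / 2 ≤ i → Λ * (J0 ⊔ T) * WW m Fl i 0 ≤ E k := fun k i hi => by
    rw [Ideal.mul_sup, Ideal.sup_mul]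
    refine sup_le (jL k i hi) ((Ideal.mul_mono_left (Ideal.mul_mono_left hΛ)).trans ?_)
    rw [Ideal.sup_mul, Ideal.sup_mul, mul_comm J0]
    exact sup_le ((Ideal.mul_mono_left (Ideal.mul_mono_left hT)).trans (jL k i hi)) (TT k i hi)
  have LL : ∀ k i, (k + 1) / 2 ≤ i → Λ * Λ * WW m Fl i 0 ≤ E k := fun k i hi =>
    (Ideal.mul_mono_left (Ideal.mul_mono_right hΛ)).trans (LL' k i hi)
  have KL : ∀ k i, k / 2 ≤ i → K * Λ * WW m Fl i 0 ≤ E k := fun k i hi => by
    refine (Ideal.mul_mono_left (Ideal.mul_mono_right hΛ)).trans ?_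
    rw [Ideal.mul_sup, Ideal.sup_mul]
    exact sup_le (jK k i hi) (KT k i hi)
  refine ⟨by simpa [WW_top fl] using LL' 0 0 le_rfl, fun k => ?_, fun k q => ?_⟩
  · have e1 : ∀ I J I' J' M : Ideal A, I * J * (I' * J') * M = I * I' * (J * J' * M) :=
      fun _ _ _ _ _ => by ring
    have e2 : ∀ i j, WW m Fl i 0 * WW m Fl j 0 * m ≤ WW m Fl (i + 1) 0 := fun i j => by
      simp only [WW_zero fl, pow_succ]
      exact Ideal.mul_mono_left Ideal.mul_le_left
    simp only [Jf, Ideal.mul_sup, Ideal.sup_mul, sup_le_iff, e1, mul_comm Λ K]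
    exact ⟨⟨(Ideal.mul_mono_right (e2 _ _)).trans (LL _ _ (by omega)),
      (Ideal.mul_mono_right (e2 _ _)).trans (KL _ _ (by omega))⟩,
      (Ideal.mul_mono_right (e2 _ _)).trans (KL _ _ (by omega)), KE _ _⟩
  · have e1 : ∀ I J I' J' : Ideal A, I * J * (I' * J') = I * I' * (J * J') := fun _ _ _ _ => by ring
    have e2 : ∀ I J I' J' : Ideal A, I * J * (I' * J') = I * (I' * (J * J')) := fun _ _ _ _ => by
      ring
    have e3 : ∀ I J I' J' : Ideal A, I * J * (I' * J') = I' * (I * (J * J')) := fun _ _ _ _ => by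
      ring
    have t := h.tb q
    simp only [Hyp.Jz, Ideal.mul_sup, Ideal.sup_mul, Submodule.iSup_mul, Submodule.mul_iSup,
      sup_le_iff, iSup_le_iff, t]
    refine ⟨⟨⟨⟨?_, ?_⟩, fun a => ?_⟩, ⟨?_, ?_⟩, fun a => ?_⟩, fun b => ⟨⟨?_, ?_⟩, fun a => ?_⟩⟩
    · rw [e1]
      refine (Ideal.mul_mono_right (WW_mul0 fl le_rfl)).trans (LL _ _ ?_)
      cases h.ty q <;> simp <;> omega
    · rw [e1]
      refine (Ideal.mul_mono_right (WW_mul0 fl le_rfl)).trans (KL _ _ ?_)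
      cases h.ty q <;> simp; omega
    · rw [e3]
      refine Lr _ a (WW_mul fl ?_ ?_)
      · cases h.ty q <;> split_ifs <;> simp_all <;> omega
      · simp only [Hyp.mw]; omega
    · rw [e1, mul_comm Λ]
      refine (Ideal.mul_mono_right (WW_mul0 fl le_rfl)).trans (KL _ _ ?_)
      cases h.ty q <;> simp; omega
    · rw [e1]; exact KE _ _
    · rw [e3]
      refine Kr _ a (WW_mul0 fl ?_)
      split_ifs <;> omega
    · rw [e2]
      refine Lr _ b (WW_mul fl ?_ ?_)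
      · split_ifs <;> omega
      · simp only [Hyp.mw, h.bb]; omega
    · rw [e2]
      refine Kr _ b (WW_mul0 fl ?_)
      split_ifs <;> omega
    · rw [e2]
      refine rr _ a b (WW_mul fl (by omega) ?_)
      simp only [Hyp.mw, h.bb]; omega

/-! ### the hyperbolic quadratic form -/

variable [Fintype X] {p : ℕ} {K : Type} [CommRing K] [Algebra K A] (h : Hyp X)

/-- the hyperbolic form -/
def Hyp.QQ (c : X → K) (ζ : X → A) : A :=
  ∑ q, if h.ty q = true then 0 else c q • (ζ q * ζ (h.bar q))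

theorem Hyp.sum_bar {M : Type*} [AddCommMonoid M] (f : X → M) :
    ∑ q, f q = ∑ q, if h.ty q = true then 0 else f q + f (h.bar q) := by
  have e := Equiv.sum_comp (⟨h.bar, h.bar, h.bb, h.bb⟩ : X ≃ X) fun q => if h.ty q = true then f q else 0
  have : ∀ q, (if h.ty q = true then 0 else f q + f (h.bar q)) = (if h.ty q = true then 0 else f q) +
      if h.ty (h.bar q) = true then f (h.bar q) else 0 := fun q => by
    rw [h.tb]; cases h.ty q <;> simp
  simp only [this, Finset.sum_add_distrib]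
  rw [show ∑ q, (if h.ty (h.bar q) = true then f (h.bar q) else 0) = _ from e,
    ← Finset.sum_add_distrib]
  exact Finset.sum_congr rfl fun q _ => by split_ifs <;> simp

theorem Hyp.map_QQ {B : Type*} [CommRing B] [Algebra K B] (ψ : A →ₐ[K] B) (c : X → K) (ζ : X → A) :
    ψ (h.QQ c ζ) = h.QQ c fun q => ψ (ζ q) := by
  simp [Hyp.QQ, apply_ite ψ]

theorem Hyp.QQ_add {c : X → K} (hc : ∀ q, c (h.bar q) = c q) (x r : X → A) :
    h.QQ c (x + r) = h.QQ c x + ∑ q, r q * c q • x (h.bar q) + h.QQ c r := by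
  rw [h.sum_bar fun q => r q * c q • x (h.bar q)]
  simp only [Hyp.QQ, ← Finset.sum_add_distrib, hc, h.bb, Pi.add_apply, Algebra.smul_def]
  exact Finset.sum_congr rfl fun q _ => by split_ifs <;> ring

theorem Hyp.der_QQ {c : X → K} (hc : ∀ q, c (h.bar q) = c q) (D : Derivation K A A) (ζ : X → A) :
    D (h.QQ c ζ) = ∑ q, D (ζ q) * c q • ζ (h.bar q) := by
  rw [h.sum_bar]
  simp only [Hyp.QQ, map_sum, apply_ite D, map_zero, hc, h.bb, Derivation.map_smul,
    Derivation.leibniz, smul_eq_mul]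
  simp only [Algebra.smul_def]
  exact Finset.sum_congr rfl fun q _ => by split_ifs <;> ring

theorem Hyp.QQ_mem (c : X → K) {ζ : X → A} (hz : ∀ q, ζ q ∈ m) : h.QQ c ζ ∈ m ^ 2 :=
  sum_mem fun q _ => by
    split_ifs
    · exact zero_mem _
    · exact Submodule.smul_of_tower_mem _ _ (sq m ▸ Ideal.mul_mem_mul (hz _) (hz _))

variable [Fact ((p : K) = 0)] {σ : Type}

theorem Hyp.pd_QQ {c : X → K} (hc : ∀ q, c (h.bar q) = c q) {e : X → σ} (he : Injective e) (q : X) :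
    pd (e q) (h.QQ c fun a => (z (e a) : O p K σ)) = c q • z (e (h.bar q)) := by
  rw [h.der_QQ hc, Finset.sum_eq_single q (fun a _ ha => by
    rw [pd_z_ne (he.ne ha.symm), zero_mul]) (by simp)]
  simp

theorem Hyp.pd_QQ_not {c : X → K} (hc : ∀ q, c (h.bar q) = c q) {e : X → σ} {u : σ}
    (hu : u ∉ range e) : pd u (h.QQ c fun a => (z (e a) : O p K σ)) = 0 := by
  rw [h.der_QQ hc]
  exact Finset.sum_eq_zero fun a _ => by rw [pd_z_ne fun h => hu ⟨a, h.symm⟩, zero_mul]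

omit [Fintype X] in
theorem span_smul {c : K} (hc : IsUnit c) (x : A) : Ideal.span {c • x} = Ideal.span {x} := by
  rw [Algebra.smul_def]
  exact Ideal.span_singleton_mul_left_unit (hc.map _) x

omit [Fact ((p : K) = 0)] in
theorem Hyp.JM_bot (fl : Flt Fl) {N : ℕ} (hN : Fl N = ⊥) (r : X → A) :
    ∃ n, ∀ q, h.JM m Fl r n q = ⊥ := by
  obtain ⟨B, hB⟩ := (finite_range fun x : X × X => (N : ℤ) - h.mw x.1 x.2).bddAbove
  refine ⟨B.toNat, fun q => le_bot_iff.1 (iSup_le fun a => Ideal.mul_le_right.trans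
    (inf_le_right.trans ((fl.anti ?_).trans hN.le)))⟩
  have := hB ⟨(q, a), rfl⟩
  simp only at this
  omega

/-- **the weighted Morse lemma** -/
theorem Hyp.morse [Fact p.Prime] (fl : Flt Fl) {N : ℕ} (hN : Fl N = ⊥) (hp : ∀ x ∈ m, x ^ p = 0)
    {c : X → K} (hc : ∀ q, c (h.bar q) = c q) (hu : ∀ q, IsUnit (c q)) {r : X → A}
    (hr : ∀ q, r q ∈ m) {P : A}
    (hP : P ∈ ⨆ a, h.JM m Fl r 0 (h.bar a) * Ideal.span {r a}) :
    ∃ ρ : X → A, (∀ q, ρ q - r q ∈ h.JM m Fl r 0 q) ∧ h.QQ c ρ = h.QQ c r + P := by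
  classical
  let φ : O p K X →ₐ[K] A := lift r fun q => hp _ (hr q)
  have hz : ∀ q, φ (z q) = r q := fun q => lift_z _ _ _
  have hd : ∀ q, φ (pd q (h.QQ c z)) = c q • r (h.bar q) := fun q => by
    rw [show pd q (h.QQ c z) = _ from h.pd_QQ hc injective_id q, map_smul, hz, id]
  have hE : ∀ k a, h.JM m Fl r k (h.bar a) * Ideal.span {r a} ≤
      EE (h.JM m Fl r k) (fun q => φ (pd q (h.QQ c z))) ⊥ := fun k a => by
    have := le_EE (h.JM m Fl r k) (fun q => φ (pd q (h.QQ c z))) ⊥ (h.bar a)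
    rwa [hd, span_smul (hu _), h.bb] at this
  obtain ⟨n, hn⟩ := h.JM_bot (m := m) fl hN r
  obtain ⟨ψ, h1, h2⟩ := toug_w (GO := triv K _) (G := triv K A) (d := fun _ => ()) (D := ())
    (fun _ => rfl) (W := h.QQ c z) rfl (I := fun _ => m) (fun _ => hp) (J := h.JM m Fl r) (H := ⊥)
    (fun _ _ => triv_id _) (triv_id _)
    (fun k q => iSup_mono fun a => Ideal.mul_mono_right (WW_le fl le_rfl (by omega)))
    (fun q => iSup_le fun a => Ideal.mul_le_left.trans
      ((Ideal.span_singleton_le_iff_mem _).2 (hr a))) (φ := φ) (fun q => ⟨rfl, hz q ▸ hr q⟩)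
    (fun k x y => by
      rcases eq_or_ne y (h.bar x) with rfl | hy
      · exact Ideal.mul_le_left.trans (h.JM_mul fl r k x (hE _))
      · rw [show pd y (h.QQ c z) = _ from h.pd_QQ hc injective_id y, Derivation.map_smul, id,
          pd_z_ne (by rintro rfl; exact hy (h.bb y).symm), smul_zero, Car_zero, Ideal.mul_bot]
        exact bot_le) (P := P) rfl (iSup_le (hE 0) hP) n
  refine ⟨fun q => ψ (z q), fun q => hz q ▸ (h1 q).2, ?_⟩
  simp only [EE, hn, Ideal.bot_mul, iSup_bot, sup_bot_eq, Ideal.mem_bot, h.map_QQ, hz] at h2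
  linear_combination h2

end Crest.Agent.N255.Tg

end
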