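import Crest.Agent.N255.Tg.Ph

/-!
# Row 255 (helper23): absorption of `Λ²` at a critical point in the Gaussian variables
-/

set_option autoImplicit false
open Set Function Sum

noncomputable section

namespace Crest.Agent.N255.Tg

open _root_.N255.Dr _root_.N255.Dr.O Cs

variable {p : ℕ} {K : Type} [CommRing K] {V τ : Type}



theorem rn_mem (f : V → τ) {W : O p K V} (h : W ∈ mx) : rn f W ∈ mx :=
  map_mx _ (fun i => by rw [rn_z]; exact z_mem _) h

variable [Fact ((p : K) = 0)]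

theorem pd_rn' [Fintype V] {f : V → τ} {x : V} (hf : ∀ y, f y = f x → y = x) (W : O p K V) :
    pd (f x) (rn f W) = rn f (pd x W) := by
  rw [chain, Finset.sum_eq_single x (fun y _ hy => by
    rw [rn_z, pd_z_ne fun h => hy (hf y h.symm), smul_zero]) (by simp)]
  simp

theorem pd_rn [Fintype V] {f : V → τ} (hf : Injective f) (x : V) (W : O p K V) :
    pd (f x) (rn f W) = rn f (pd x W) := pd_rn' (fun _ h => hf h) W

theorem pd_rn_not [Fintype V] {f : V → τ} {u : τ} (hu : u ∉ range f) (W : O p K V) :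
    pd u (rn f W) = 0 := by
  rw [chain]
  exact Finset.sum_eq_zero fun x _ => by
    rw [rn_z, pd_z_ne fun h => hu ⟨x, h.symm⟩, smul_zero]

variable {A : Type*} [CommRing A] [Algebra K A] {X σ : Type} [Fintype X] [Fintype σ]
  {m : Ideal A} {Fl : ℤ → Ideal A}

theorem Flt.ex_bot (fl : Flt Fl) {N : ℕ} (hN : Fl N = ⊥) (i : X → ℕ) (g : X → ℤ) :
    ∃ n : ℕ, ∀ a, WW m Fl (i a) (g a + n) = ⊥ := by
  obtain ⟨B, hB⟩ := (finite_range fun x : X => (N : ℤ) - g x).bddAbove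
  refine ⟨B.toNat, fun a => le_bot_iff.1 (inf_le_right.trans ((fl.anti ?_).trans hN.le))⟩
  have := hB ⟨a, rfl⟩
  simp only at this
  omega

theorem mem_WW {i : ℕ} {n : ℤ} {x : A} : x ∈ WW m Fl i n ↔ x ∈ m ^ i ∧ x ∈ Fl n := Iff.rfl

theorem WW_one_le {n : ℤ} : WW m Fl 1 n ≤ m := inf_le_left.trans (pow_one m).le

/-- **absorption**: `χ` is critical in the Gaussian variables `e q`, `χ'` is any point over it -/
theorem Hyp.absorb [Fact p.Prime] (h : Hyp X) {FS : σ → ℕ} {e : X → σ} (he : Injective e)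
    (hF : ∀ q, h.F q = FS (e q)) (fl : Flt Fl) {N : ℕ} (hN : Fl N = ⊥) (hm : IsNilpotent m)
    (hp : ∀ x ∈ m, x ^ p = 0) {c : X → K} (hc : ∀ q, c (h.bar q) = c q) (hu : ∀ q, IsUnit (c q))
    {G : O p K σ} (hG : ∀ q, pd (e q) G ∈ Ge p K FS (h.F (h.bar q) + 1)) {Sh : σ → Prop}
    (hSh : ∀ q, ¬ Sh (e q))
    (hGm : ∀ q u, h.ty q = true → u ∈ range e ∨ Sh u → pd (e q) (pd u G) ∈ mx)
    {B : σ → Ideal A} (iso : ∀ f f', Sh f → Sh f' → pd f (pd f' G) ∈ mx ∨ B f * B f' ≤ m)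
    {μ κ : ℤ} (hμ : ∀ f, Sh f → B f ≤ Fl (FS f - μ))
    (hκ : ∀ q, h.F q < κ) {χ χ' : O p K σ →ₐ[K] A} (hχ : ∀ u, χ (z u) ∈ WW m Fl 1 (FS u))
    (hχ' : ∀ u, χ' (z u) ∈ WW m Fl 1 (FS u)) (off : ∀ u, u ∉ range e → χ' (z u) = χ (z u))
    (crit : ∀ q, c q • χ (z (e (h.bar q))) + χ (pd (e q) G) = 0) {Λ Kk H T : Ideal A}
    (hΛm : Λ ≤ WW m Fl 1 μ) (hKm : Kk ≤ WW m Fl 1 κ) (KK : Kk * Kk ≤ H)
    (hΛ : Λ ≤ (⨆ f, ⨆ _ : Sh f, B f * Ideal.span {χ (pd f G)}) ⊔ T) (hT : T ≤ Λ)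
    (hT' : T ≤ Kk ⊔ ⨆ a, Ideal.span {χ' (z (e a)) - χ (z (e a))} * WW m Fl 1 (κ - h.F a))
    (sq : χ (h.QQ c (fun q => z (e q)) + G) ∈
      Λ * ((⨆ f, ⨆ _ : Sh f, B f * Ideal.span {χ (pd f G)}) ⊔ T)) :
    ∃ (ψ : O p K σ →ₐ[K] A) (ζ : X → A), (∀ u, ¬ Sh u → ψ (z u) = χ' (z u)) ∧
      (∀ u, ψ (z u) - χ' (z u) ∈ (Λ ⊔ Kk) * B u) ∧
      (∀ q, ζ q ∈ m ∧ ζ q - (χ' (z (e q)) - χ (z (e q))) ∈ Fl (h.F q + 1)) ∧
      ψ (h.QQ c (fun q => z (e q)) + G) - h.QQ c ζ ∈ H := by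
  classical
  set r : X → A := fun q => χ' (z (e q)) - χ (z (e q)) with hr
  have hrW : ∀ q, r q ∈ WW m Fl 1 (h.F q) := fun q => hF q ▸ sub_mem (hχ' _) (hχ _)
  have hI : ∀ u, WW m Fl 1 (FS u) ≤ Fl (FS u) := fun u => inf_le_right
  have hδ : ∀ u, u ∉ range e → Ideal.span {χ' (z u) - χ (z u)} = ⊥ := fun u hu => by
    rw [off u hu, sub_self, Ideal.span_singleton_zero]
  have car : ∀ {g : O p K σ} {n : ℤ} {i : ℕ}, g ∈ Ge p K FS n → (i = 0 ∨ i = 1 ∧ g ∈ mx) →
      Car (fun u => WW m Fl 1 (FS u)) g ≤ WW m Fl i n := fun hg hi => by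
    refine le_inf ?_ (Car_Ge fl hI hg)
    rcases hi with rfl | ⟨rfl, hi⟩
    · simp
    · rw [pow_one]; exact Car_mx (fun _ => WW_one_le) hi
  -- the Morse lemma
  have t2 := tay2 hχ hχ' G (E := ⨆ a, h.JM m Fl r 0 (h.bar a) * Ideal.span {r a}) fun x y => by
    by_cases hx : x ∈ range e; swap
    · simp [hδ x hx]
    by_cases hy : y ∈ range e; swap
    · simp [hδ y hy]
    obtain ⟨a, rfl⟩ := hx
    obtain ⟨b, rfl⟩ := hy
    refine le_iSup_of_le a ?_
    rw [mul_assoc, mul_comm]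
    refine Ideal.mul_mono_left (le_iSup_of_le b (Ideal.mul_mono_right (car ?_ ?_)))
    · refine mem_Ge.2 fun v hv => ?_
      have h1 := mem_Ge.1 (pd_Ge (hG b) (e a)) v hv
      have h2 := mem_Ge.1 (pd_Ge (hG a) (e b)) v (by rwa [pd_comm])
      simp only [Hyp.mw, h.bb, hF] at h1 h2 ⊢
      omega
    · rw [h.tb]
      cases ha : h.ty a
      · simp
      · exact Or.inr ⟨by simp, hGm a _ ha (Or.inl ⟨b, rfl⟩)⟩
  obtain ⟨ρ, hρ, eρ⟩ := h.morse fl hN hp hc hu (fun q => WW_one_le (hrW q)) t2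
  have e0 : χ' (h.QQ c (fun q => z (e q)) + G) - h.QQ c ρ = χ (h.QQ c (fun q => z (e q)) + G) := by
    rw [← Fintype.sum_of_injective e he (fun q => r q * χ (pd (e q) G)) _
      (fun u hu => by rw [off u hu, sub_self, zero_mul]) (fun _ => rfl)] at eρ
    have e1 := h.QQ_add hc (fun q => χ (z (e q))) r
    rw [show (fun q => χ (z (e q))) + r = fun q => χ' (z (e q)) from funext fun q => by simp [hr]]
      at e1
    have e2 : ∑ q, r q * c q • χ (z (e (h.bar q))) + ∑ q, r q * χ (pd (e q) G) = 0 := by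
      simp only [← Finset.sum_add_distrib, ← mul_add, crit, mul_zero, Finset.sum_const_zero]
    rw [map_add, map_add, h.map_QQ, h.map_QQ]
    linear_combination e1 - eρ + e2
  have JMle : ∀ q, h.JM m Fl r 0 q ≤ WW m Fl 1 (h.F q + 1) := fun q => iSup_le fun a =>
    (Ideal.mul_mono_left ((Ideal.span_singleton_le_iff_mem _).2 (hrW a))).trans
      (WW_mul fl (by omega) (by simp only [Hyp.mw]; omega))
  have hρW : ∀ q, ρ q ∈ WW m Fl 1 (h.F q) := fun q => by
    simpa using add_mem (WW_le fl le_rfl (by omega) (JMle q (hρ q))) (hrW q)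
  -- change of generators
  have c1 : ⨆ a, Ideal.span {r a} * WW m Fl 1 (κ - h.F a) ≤
      ⨆ a, Ideal.span {ρ a} * WW m Fl 1 (κ - h.F a) := by
    obtain ⟨n, hn⟩ := fl.ex_bot (m := m) hN (fun _ => 1) fun a => κ - h.F a
    simpa using h.conv hρ (B := fun n a => WW m Fl 1 (κ - h.F a + n)) hn
      (fun n a => WW_le fl le_rfl (by omega))
      fun n q a => WW_mul fl (by omega) (by simp only [Hyp.mw]; omega)
  have c2 : ⨆ q, Ideal.span {r q} * WW m Fl (if h.ty q = true then 1 else 0)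
        (h.F (h.bar q) + 1 - μ) ≤ ⨆ q, Ideal.span {ρ q} *
      WW m Fl (if h.ty q = true then 1 else 0) (h.F (h.bar q) + 1 - μ) := by
    obtain ⟨n, hn⟩ := fl.ex_bot (m := m) hN (fun q => if h.ty q = true then 1 else 0)
      fun q => h.F (h.bar q) + 1 - μ
    simpa using h.conv hρ
      (B := fun n q => WW m Fl (if h.ty q = true then 1 else 0) (h.F (h.bar q) + 1 - μ + n)) hn
      (fun n a => WW_le fl le_rfl (by omega))
      fun n q a => WW_mul fl (by split_ifs <;> omega) (by simp only [Hyp.mw]; omega)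
  have hJ : (⨆ f, ⨆ _ : Sh f, B f * Ideal.span {χ (pd f G)}) ≤
      (⨆ f, ⨆ _ : Sh f, B f * Ideal.span {χ' (pd f G)}) ⊔ ⨆ q, Ideal.span {ρ q} *
        WW m Fl (if h.ty q = true then 1 else 0) (h.F (h.bar q) + 1 - μ) := by
    refine iSup₂_le fun f hf => ?_
    have t1 := tay1 hχ hχ' (pd f G) (E := ⨆ q, Ideal.span {r q} *
        WW m Fl (if h.ty q = true then 1 else 0) (h.F (h.bar q) + 1 - FS f)) fun x => by
      by_cases hx : x ∈ range e; swap
      · simp [hδ x hx]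
      obtain ⟨a, rfl⟩ := hx
      refine le_iSup_of_le a (Ideal.mul_mono_right (car ?_ ?_))
      · rw [pd_comm]
        exact pd_Ge (hG a) f
      · split_ifs with ha
        · exact Or.inr ⟨rfl, hGm a f ha (Or.inr hf)⟩
        · exact Or.inl rfl
    have t2 := (Ideal.span_singleton_le_iff_mem _).2 (sub_mem (Ideal.mem_sup_left
      (Ideal.mem_span_singleton_self (χ' (pd f G)))) (Ideal.mem_sup_right t1))
    rw [sub_sub_cancel] at t2
    refine (Ideal.mul_mono_right t2).trans ?_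
    rw [Ideal.mul_sup, Submodule.mul_iSup]
    refine sup_le_sup (le_iSup₂_of_le f hf le_rfl) (le_trans (iSup_mono fun q => ?_) c2)
    rw [mul_left_comm]
    exact Ideal.mul_mono_right ((Ideal.mul_mono_left (le_inf (by simp) (hμ f hf))).trans
      (WW_mul (i := 0) fl (by omega) (by omega)))
  -- the final absorption
  let W : O p K (σ ⊕ X) := rn inl (h.QQ c (fun q => z (e q)) + G) - h.QQ c fun q => z (inr q)
  let φ : O p K (σ ⊕ X) →ₐ[K] A := lift (Sum.elim (fun u => χ' (z u)) ρ) (by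
    rintro (u | q)
    exacts [hp _ (WW_one_le (hχ' u)), hp _ (WW_one_le (hρW q))])
  have z1 : ∀ u, φ (z (inl u)) = χ' (z u) := fun u => lift_z _ _ _
  have z2 : ∀ q, φ (z (inr q)) = ρ q := fun q => lift_z _ _ _
  have r1 : ∀ g, φ (rn inl g) = χ' g := fun g =>
    AlgHom.congr_fun (hom_ext (f := φ.comp (rn inl)) (g := χ') fun u => by simp [z1]) g
  have p1 : ∀ f, Sh f → pd (inl f) W = rn inl (pd f G) := fun f hf => by
    rw [map_sub, pd_rn inl_injective, h.pd_QQ_not hc (e := inr) (by simp), sub_zero, map_add,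
      h.pd_QQ_not hc (by rintro ⟨q, rfl⟩; exact hSh q hf), zero_add]
  have p2 : ∀ q, pd (inr q) W = -(c q • z (inr (h.bar q))) := fun q => by
    rw [map_sub, pd_rn_not (by simp), h.pd_QQ hc inr_injective, zero_sub]
  let J : ℕ → σ ⊕ X → Ideal A := fun k =>
    Sum.elim (fun u => if Sh u then Jf m Fl Λ Kk k * B u else ⊥) (h.Jz m Fl μ ρ Λ Kk k)
  obtain ⟨a1, a2, a3⟩ := h.phase fl hκ (E := fun k => EE (J k) (fun x => φ (pd x W)) H)
    (fun k => H_le_EE _ _ _) KK (fun k a => by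
      have := le_EE (J k) (fun x => φ (pd x W)) H (inr (h.bar a))
      rwa [p2, map_neg, Ideal.span_singleton_neg, map_smul, span_smul (hu _), z2, h.bb] at this)
    (fun k => by
      simp only [Submodule.mul_iSup, iSup_le_iff]
      intro f hf
      have := le_EE (J k) (fun x => φ (pd x W)) H (inl f)
      rwa [p1 f hf, r1, show J k (inl f) = _ from if_pos hf, mul_assoc] at this) hJ hΛ hT
    (hT'.trans (sup_le_sup_left c1 _))
  have J0f : Jf m Fl Λ Kk 0 = Λ ⊔ Kk := by simp [Jf, WW_top fl]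
  have J0z : ∀ q, h.Jz m Fl μ ρ Λ Kk 0 q ≤ WW m Fl 1 (h.F q + 1) := fun q =>
    sup_le (sup_le ((Ideal.mul_mono_left hΛm).trans (WW_mul fl (by omega) (by omega)))
      (Ideal.mul_le_left.trans (hKm.trans (WW_le fl le_rfl (by have := hκ q; omega)))))
      (iSup_le fun a => (Ideal.mul_mono_left ((Ideal.span_singleton_le_iff_mem _).2 (hρW a))).trans
        (WW_mul fl (by omega) (by simp only [Hyp.mw]; omega)))
  obtain ⟨M, hM⟩ := hm
  obtain ⟨ψ, h1, h2⟩ := toug_w (GO := triv K _) (G := triv K A) (d := fun _ => ()) (D := ())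
    (fun _ => rfl) (W := W) rfl (I := fun _ => m) (fun _ => hp) (J := J) (H := H)
    (fun _ _ => triv_id _) (triv_id _)
    (by
      rintro k (u | q)
      · simp only [J, Sum.elim_inl]
        split_ifs
        · rw [J0f]; exact Ideal.mul_mono_left (sup_le_sup Ideal.mul_le_left Ideal.mul_le_left)
        · exact le_rfl
      · exact sup_le_sup (sup_le_sup
          (Ideal.mul_mono_right (WW_le fl (by split_ifs <;> omega) le_rfl))
          (Ideal.mul_mono_right (WW_le fl (by split_ifs <;> omega) le_rfl)))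
          (iSup_mono fun a => Ideal.mul_mono_right (WW_le fl (by omega) le_rfl)))
    (by
      rintro (u | q)
      · simp only [J, Sum.elim_inl]
        split_ifs
        · rw [J0f]
          exact Ideal.mul_le_left.trans (sup_le (hΛm.trans WW_one_le) (hKm.trans WW_one_le))
        · exact bot_le
      · exact (J0z q).trans WW_one_le)
    (φ := φ) (by
      rintro (u | q)
      exacts [⟨rfl, z1 u ▸ WW_one_le (hχ' u)⟩, ⟨rfl, z2 q ▸ WW_one_le (hρW q)⟩])
    (by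
      rintro k (u | q) (v | q')
      · by_cases hu : Sh u; swap
        · simp [J, hu]
        by_cases hv : Sh v; swap
        · simp [J, hv]
        rw [show J k (inl u) = _ from if_pos hu, show J 0 (inl v) = _ from if_pos hv, p1 v hv,
          pd_rn inl_injective, mul_mul_mul_comm, mul_assoc]
        refine (Ideal.mul_mono_right ?_).trans (a2 k)
        exact (iso u v hu hv).elim
          (fun h1 => Ideal.mul_le_right.trans (Car_mx (fun _ => le_rfl) (rn_mem _ h1)))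
          Ideal.mul_le_left.trans
      · rw [p2, map_neg, Derivation.map_smul, pd_z_ne (by simp)]; simp [Car_zero]
      · by_cases hv : Sh v; swap
        · simp [J, hv]
        rw [p1 v hv, pd_rn_not (by simp)]; simp [Car_zero]
      · rcases eq_or_ne q' (h.bar q) with rfl | hy
        · exact Ideal.mul_le_left.trans (a3 k q)
        · rw [p2, map_neg, Derivation.map_smul, pd_z_ne (by
            intro h'; exact hy (by rw [inr_injective h', h.bb]))]
          simp [Car_zero])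
    (P := -χ (h.QQ c (fun q => z (e q)) + G)) rfl (neg_mem (a1 sq)) (2 * M)
  have hb : ∀ i n, M ≤ i → WW m Fl i n = ⊥ := fun i n hi =>
    le_bot_iff.1 (inf_le_left.trans ((Ideal.pow_le_pow_right hi).trans hM.le))
  have hn : ∀ x, J (2 * M) x = ⊥ := by
    rintro (u | q)
    · simp only [J, Sum.elim_inl, Jf]
      rw [hb _ _ (by omega), hb _ _ (by omega)]; simp
    · simp only [J, Sum.elim_inr, Hyp.Jz]
      rw [hb _ _ (by split_ifs <;> omega), hb _ _ (by split_ifs <;> omega)]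
      simp [hb _ _ (show M ≤ (2 * M + 1) / 2 + 1 by omega)]
  refine ⟨ψ.comp (rn inl), fun q => ψ (z (inr q)), fun u hu => ?_, fun u => ?_, fun q => ?_, ?_⟩
  · have := (h1 (inl u)).2
    rw [show J 0 (inl u) = _ from if_neg hu, z1, Ideal.mem_bot, sub_eq_zero] at this
    simpa using this
  · have := (h1 (inl u)).2
    simp only [J, Sum.elim_inl, z1, J0f] at this
    split_ifs at this
    · simpa using this
    · simpa using (bot_le : _ ≤ (Λ ⊔ Kk) * B u) this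
  · have := J0z q (h1 (inr q)).2
    rw [z2] at this
    exact ⟨by simpa using add_mem (WW_one_le this) (WW_one_le (hρW q)),
      by simpa using add_mem this.2 (JMle q (hρ q)).2⟩
  · simp only [EE, hn, Ideal.bot_mul, iSup_bot, bot_sup_eq, W, map_sub, r1, h.map_QQ ψ,
      h.map_QQ φ, z2, e0] at h2
    rwa [sub_neg_eq_add, sub_add_cancel] at h2

omit [Fact ((p : K) = 0)] [Fintype X] [Fintype σ] in
theorem der_mem_pow (D : Derivation K A A) {I : Ideal A} (n : ℕ) {f : A} (hf : f ∈ I ^ (n + 1)) :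
    D f ∈ I ^ n := by
  induction n generalizing f with
  | zero => simp
  | succ n ih =>
    rw [pow_succ] at hf
    refine Submodule.mul_induction_on hf (fun x hx y hy => ?_) fun x y hx hy => ?_
    · rw [Derivation.leibniz, smul_eq_mul, smul_eq_mul]
      exact add_mem (Ideal.mul_mem_right _ _ hx) (pow_succ' I n ▸ Ideal.mul_mem_mul hy (ih hx))
    · rw [map_add]; exact add_mem hx hy

theorem pd_sq {f : O p K V} (hf : f ∈ (mx : Ideal (O p K V)) ^ 2) (v : V) : pd v f ∈ mx := by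
  simpa using der_mem_pow (pd v) 1 hf

omit [Fact ((p : K) = 0)] in
theorem Ge_mono [Fintype V] {F F' : V → ℕ} (h : ∀ v, F v ≤ F' v) {n n' : ℤ} (hn : n' ≤ n) :
    Ge p K F n ≤ Ge p K F' n' := fun f hf => mem_Ge.2 fun a ha => by
  have h1 := mem_Ge.1 hf a ha
  have h2 : wt F a ≤ wt F' a := Finset.sum_le_sum fun v _ => Nat.mul_le_mul_left _ (h v)
  omega

omit [Fintype X] in
/-- weighted fixed points with an invariant family of ideals -/
theorem solve_wI [Fact p.Prime] (h : Flt Fl) (hp : ∀ x ∈ Fl 1, x ^ p = 0) {N : ℕ} (hN : Fl N = ⊥)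
    {F : σ → ℕ} {e : X → σ} (he : Injective e) {η : X → O p K σ}
    (hη : ∀ i, η i ∈ Ge p K F (F (e i) + 1)) {I : σ → Ideal A} (hI : ∀ i, Car I (η i) ≤ I (e i))
    {φ : O p K σ →ₐ[K] A} (hφ : ∀ u, u ∉ range e → φ (z u) ∈ Fl (F u) ∧ φ (z u) ∈ I u) :
    ∃ ψ : O p K σ →ₐ[K] A, (∀ u, ψ (z u) ∈ Fl (F u) ∧ ψ (z u) ∈ I u) ∧
      (∀ u, u ∉ range e → ψ (z u) = φ (z u)) ∧
      ∀ i, ψ (z (e i)) = ψ (η i) ∧ ψ (z (e i)) ∈ Fl (F (e i) + 1) := by
  have key : ∀ (b : X → A) (hb : ∀ i, b i ∈ Fl 1), (∀ i, b i ∈ Fl (F (e i) + 1) ∧ b i ∈ I (e i)) →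
      ∀ u, upd hp e φ b hb (z u) ∈ Fl (F u) ∧ upd hp e φ b hb (z u) ∈ I u := fun b hb h1 u => by
    by_cases hu : u ∈ range e
    · obtain ⟨i, rfl⟩ := hu
      rw [upd_e hp he]
      exact ⟨h.anti (by omega) (h1 i).1, (h1 i).2⟩
    · rw [upd_not _ _ _ _ _ hu]; exact hφ u hu
  have : ∀ k : ℕ, ∃ (b : X → A) (hb : ∀ i, b i ∈ Fl 1), (∀ i, b i ∈ Fl (F (e i) + 1) ∧
      b i ∈ I (e i)) ∧ ∀ i, upd hp e φ b hb (η i) - b i ∈ Fl (F (e i) + 1 + k) := by
    intro k
    induction k with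
    | zero =>
      have h0 : ∀ i, (0 : A) ∈ Fl (F (e i) + 1) ∧ (0 : A) ∈ I (e i) :=
        fun i => ⟨zero_mem _, zero_mem _⟩
      exact ⟨fun _ => 0, fun _ => zero_mem _, h0, fun i => by
        simpa using map_Ge h (fun u => (key _ _ h0 u).1) (hη i)⟩
    | succ k ih =>
      obtain ⟨b, hb, h1, h2⟩ := ih
      have h3 : ∀ i, upd hp e φ b hb (η i) ∈ Fl (F (e i) + 1) ∧ upd hp e φ b hb (η i) ∈ I (e i) :=
        fun i => ⟨map_Ge h (fun u => (key b hb h1 u).1) (hη i),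
          hI i (map_mem_Car (fun u => (key b hb h1 u).2) _)⟩
      refine ⟨fun i => upd hp e φ b hb (η i), fun i => h.anti (by omega) (h3 i).1, h3, fun i => ?_⟩
      refine sub_Ge h (fun u => (key b hb h1 u).1) (fun u => (key _ _ h3 u).1) (fun u => ?_) (hη i)
      by_cases hu : u ∈ range e
      · obtain ⟨j, rfl⟩ := hu
        rw [upd_e hp he, upd_e hp he]
        exact h.anti (by push_cast; omega) (h2 j)
      · rw [upd_not _ _ _ _ _ hu, upd_not _ _ _ _ _ hu, sub_self]; exact zero_mem _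
  obtain ⟨b, hb, h1, h2⟩ := this N
  refine ⟨upd hp e φ b hb, key b hb h1, fun u => upd_not _ _ _ _ _, fun i => ?_⟩
  rw [upd_e hp he]
  have := h.anti (show (N : ℤ) ≤ _ by omega) (h2 i)
  rw [hN, Ideal.mem_bot, sub_eq_zero] at this
  exact ⟨this.symm, (h1 i).1⟩

/-- substitutions for the variables `eV q` that do not lower the weights -/
structure Th [Fintype V] {ι : Type} (eV : X → V) (FV : V → ℕ) (om : ι → V → ℕ)
    (θ : O p K V →ₐ[K] O p K V) : Prop where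
  off : ∀ v, v ∉ range eV → θ (z v) = z v
  mem : ∀ v, θ (z v) ∈ mx
  fv : ∀ v, θ (z v) ∈ Ge p K FV (FV v)
  om : ∀ i v, θ (z v) ∈ Ge p K (om i) (om i v)

/-- **the vertex absorption** for a universal potential `QQ + G` and a point `φ` -/
theorem Hyp.vertex [Fact p.Prime] [Fintype V] (h : Hyp X) {FS : σ → ℕ} {FV : V → ℕ} {e : X → σ}
    (he : Injective e) {eV : X → V} (heV : Injective eV) (hF : ∀ q, h.F q = FS (e q))
    (hF' : ∀ q, h.F q = FV (eV q)) {c : X → K} (hc : ∀ q, c (h.bar q) = c q)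
    (hu : ∀ q, IsUnit (c q)) {G : O p K σ} (hG : ∀ q, pd (e q) G ∈ Ge p K FS (h.F (h.bar q) + 1))
    {Sh : σ → Prop} (hSh : ∀ q, ¬ Sh (e q))
    (hGm : ∀ q u, h.ty q = true → u ∈ range e ∨ Sh u → pd (e q) (pd u G) ∈ mx)
    {C : σ → Ideal (O p K V)}
    (iso : ∀ f f', Sh f → Sh f' → pd f (pd f' G) ∈ mx ∨ C f * C f' ≤ mx) {μ κ : ℤ}
    (hμ : ∀ f, Sh f → C f ≤ Ge p K FV (FS f - μ)) (hκ : ∀ q, h.F q < κ)
    {φ : O p K σ →ₐ[K] O p K V} (hφ : ∀ u, φ (z u) ∈ WW mx (Ge p K FV) 1 (FS u))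
    (hφe : ∀ q, φ (z (e q)) = z (eV q)) {ι : Type} {om : ι → V → ℕ}
    (hq : ∀ i q, φ (pd (e q) G) ∈ Ge p K (om i) (om i (eV (h.bar q))))
    {L0 L L' Kk H : Ideal (O p K V)} (h0 : L0 ≤ WW mx (Ge p K FV) 1 μ)
    (st : ∀ θ : O p K V →ₐ[K] O p K V, Th eV FV om θ → (∀ x ∈ L0, θ x ∈ L0) ∧
      ∀ f, Sh f → ∀ x ∈ C f, θ x ∈ C f)
    (hK0 : Kk ≤ L0) (hK : Kk ≤ Ge p K FV κ) (KK : Kk * Kk ≤ H) (hL : L ≤ L')
    (up : L ≤ L0 ⊔ sp fun q => c q • z (eV (h.bar q)) + φ (pd (e q) G))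
    (det : L' ≤ (⨆ f, ⨆ _ : Sh f, C f * Ideal.span {φ (pd f G)}) ⊔
      (sp fun q => c q • z (eV (h.bar q)) + φ (pd (e q) G)) ⊔ Kk)
    (sq : φ (h.QQ c (fun q => z (e q)) + G) ∈ L * L') :
    ∃ (θ : O p K V →ₐ[K] O p K V) (ψ : O p K σ →ₐ[K] O p K V) (ζ : X → O p K V),
      Th eV FV om θ ∧ (∀ q, ψ (z (e q)) = z (eV q)) ∧
      (∀ u, u ∉ range e → ¬ Sh u → ψ (z u) = θ (φ (z u))) ∧
      (∀ u, u ∉ range e → ψ (z u) - θ (φ (z u)) ∈ L0 * C u) ∧
      (∀ q, ζ q ∈ mx ∧ ζ q - z (eV q) ∈ Ge p K FV (h.F q + 1)) ∧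
      ψ (h.QQ c (fun q => z (e q)) + G) - h.QQ c ζ ∈ H := by
  classical
  have fl := flt_Ge (p := p) (K := K) FV
  obtain ⟨N, hN⟩ := Ge_bot (p := p) (K := K) FV
  choose c' hc' using fun q => (hu q).exists_left_inv
  have hp : ∀ x ∈ (mx : Ideal (O p K V)), x ^ p = 0 := fun x => pow_p
  obtain ⟨θ, t1, t2, t3⟩ := solve_wI fl (fun x hx => pow_p (Ge_le_mx le_rfl hx)) (hN N le_rfl) heV
    (η := fun q => -c' q • φ (pd (e (h.bar q)) G)) (fun q => Submodule.smul_of_tower_mem _ _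
      (map_Ge fl (fun u => (hφ u).2) (by simpa [h.bb, hF'] using hG (h.bar q))))
    (I := fun v => ⨅ i, Ge p K (om i) (om i v)) (fun q => le_iInf fun i =>
      Car_Ge (flt_Ge _) (fun v => iInf_le _ i) (Submodule.smul_of_tower_mem _ _
        (by simpa [h.bb] using hq i (h.bar q))))
    (φ := AlgHom.id K _) fun v _ => ⟨z_mem_Ge _ _, (Submodule.mem_iInf _).2 fun i => z_mem_Ge _ _⟩
  have tm : ∀ v, θ (z v) ∈ mx := fun v => by
    by_cases hv : v ∈ range eV
    · obtain ⟨q, rfl⟩ := hv; exact Ge_le_mx (by omega) (t3 q).2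
    · rw [t2 v hv]; exact z_mem v
  have th : Th eV FV om θ :=
    ⟨t2, tm, fun v => (t1 v).1, fun i v => (Submodule.mem_iInf _).1 (t1 v).2 i⟩
  have tW : ∀ {i n f}, f ∈ WW mx (Ge p K FV) i n → θ f ∈ WW mx (Ge p K FV) i n := fun hf =>
    ⟨map_mx_pow θ tm hf.1, map_Ge fl (fun v => (t1 v).1) hf.2⟩
  have zW : ∀ v, z v ∈ WW mx (Ge p K FV) 1 (FV v) := fun v =>
    ⟨by rw [pow_one]; exact z_mem v, z_mem_Ge _ _⟩
  have crit : ∀ q, θ (c q • z (eV (h.bar q)) + φ (pd (e q) G)) = 0 := fun q => by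
    rw [map_add, map_smul, (t3 _).1, h.bb, map_smul, smul_smul, mul_neg, ← hc q, mul_comm, hc']
    simp
  have mX : (sp fun q => c q • z (eV (h.bar q)) + φ (pd (e q) G)).map θ = ⊥ :=
    le_bot_iff.1 (Ideal.map_le_iff_le_comap.2 (sp_le.2 crit))
  let χ' := upd hp e (θ.comp φ) (fun q => z (eV q)) fun q => z_mem _
  have x1 : ∀ q, χ' (z (e q)) = z (eV q) := fun q => upd_e hp he _ _ _ q
  have x2 : ∀ u, u ∉ range e → χ' (z u) = θ (φ (z u)) := fun u => upd_not _ _ _ _ _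
  have mL : (L ⊔ Kk).map θ ≤ L0 := by
    refine (Ideal.map_mono (sup_le up (le_sup_of_le_left hK0))).trans ?_
    rw [Ideal.map_sup, mX, sup_bot_eq]
    exact Ideal.map_le_iff_le_comap.2 (st θ th).1
  have mD : (L' ⊔ Kk).map θ ≤ (⨆ f, ⨆ _ : Sh f, C f *
      Ideal.span {(θ.comp φ) (pd f G)}) ⊔ Kk.map θ := by
    refine (Ideal.map_mono (sup_le det le_sup_right)).trans ?_
    simp only [Ideal.map_sup, mX, sup_bot_eq, Ideal.map_iSup, Ideal.map_mul, Ideal.map_span,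
      image_singleton]
    exact sup_le_sup_right (iSup₂_mono fun f hf => Ideal.mul_mono_left
      (Ideal.map_le_iff_le_comap.2 ((st θ th).2 f hf))) _
  obtain ⟨ψ, ζ, a1, a2, a3, a4⟩ := h.absorb he hF fl (hN N le_rfl) mx_nil hp hc hu hG hSh hGm
    (B := C) iso hμ hκ (χ := θ.comp φ) (χ' := χ')
    (fun u => tW (hφ u)) (fun u => by
      by_cases hu : u ∈ range e
      · obtain ⟨q, rfl⟩ := hu
        rw [x1, ← hF, hF']; exact zW _
      · rw [x2 u hu]; exact tW (hφ u)) x2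
    (fun q => by simpa [hφe] using crit q) (Λ := (L ⊔ Kk).map θ) (T := Kk.map θ)
    (mL.trans h0)
    (le_inf (hK0.trans (h0.trans inf_le_left)) hK) KK
    ((Ideal.map_mono (sup_le_sup_right hL _)).trans mD) (Ideal.map_mono le_sup_right)
    (Ideal.map_le_iff_le_comap.2 fun x hx => by
      have := tay1 (ψ' := AlgHom.id K _) (fun v => tW (zW v)) zW x (E := ⨆ a, Ideal.span
        {χ' (z (e a)) - (θ.comp φ) (z (e a))} * WW mx (Ge p K FV) 1 (κ - h.F a)) fun v => by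
        by_cases hv : v ∈ range eV; swap
        · simp [t2 v hv]
        obtain ⟨a, rfl⟩ := hv
        refine le_iSup_of_le a ?_
        rw [x1, AlgHom.comp_apply, hφe, hF']
        refine Ideal.mul_mono_right (le_inf ?_ (Car_Ge fl (fun _ => inf_le_right)
          (pd_Ge (hK hx) _)))
        rw [pow_one]
        exact Car_mx (fun _ => WW_one_le)
          (Ge_le_mx (by have := hκ a; rw [hF'] at this; omega) (pd_Ge (hK hx) _))
      simpa using sub_mem (Ideal.mem_sup_left hx) (Ideal.mem_sup_right this))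
    (Ideal.mul_mono (Ideal.map_mono le_sup_left) ((Ideal.map_mono le_sup_left).trans mD)
      (Ideal.map_mul θ L L' ▸ Ideal.mem_map_of_mem θ sq))
  refine ⟨θ, ψ, ζ, th, fun q => (a1 _ (hSh q)).trans (x1 q),
    fun u hu hs => (a1 u hs).trans (x2 u hu),
    fun u hu => Ideal.mul_mono_left (sup_le mL hK0) (x2 u hu ▸ a2 u), fun q => ⟨(a3 q).1, ?_⟩, a4⟩
  have := sub_mem (a3 q).2 (hF' q ▸ (t3 q).2)
  rw [x1, AlgHom.comp_apply, hφe] at this
  convert this using 1; ring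

end Crest.Agent.N255.Tg

end
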